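import Claimed.Agent.R285.Tor.LinkDefs

/-!
# ROW 285, LINK FREE → PINS (post BP-LINK-FREEIN, architect helper193): leaves LK-P1 … LK-P3 (phases in height variables)

Definitions and plan: `Tor/LinkDefs.lean`.  Glue: `Tor/Link.lean` (proved).  RULE: statements verbatim; helper lemmas (prefix `lk_`) directly above the leaf.
-/

set_option autoImplicit false

namespace Claimed.Agent.R285.Tor

open Filter Topology C2 C3 Free
open scoped Classical

noncomputable section

variable {m₁ m₂ : ℕ}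

/-! ## P : phases in height variables -/

theorem lk_amb_zero {G : HGraph} (H : HLaw G) (b : ℝ) : (HLaw.Aff.zero H).amb b = 0 := by
  unfold HLaw.Aff.amb HLaw.Aff.zero
  rw [map_zero, zero_add]
  refine Prod.ext rfl (funext fun o => ?_)
  exact neg_zero

/-- expectations in height variables are expectations on the image lattice (general functional) -/
theorem lk_ex_heights {G : HGraph} (H : HLaw G) (hP : H.Proper) (b : ℝ) (F : (G.V → ℝ) → ℝ) (Φ : (H.sys b).L → ℝ)
    (hF : ∀ (h : G.V → ℤ) (hh : h ∈ H.Λ), Φ ⟨H.coordA b h, H.coordA_mem b hh⟩ = F (fun v => 2 * Real.pi * (h v : ℝ))) :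
    H.Ex b (HLaw.Aff.zero H) F = (H.sys b).E0 Φ := by
  rw [Free.E0_heights H hP]
  unfold HLaw.Ex HLaw.Z
  rw [lk_amb_zero]
  congr 1
  · refine tsum_congr fun h => ?_
    rw [hF _ h.2, add_zero]
    congr 2
    funext v
    show 2 * Real.pi * ((((h : G.V → ℤ) v + 0 : ℤ)) : ℝ) = _
    rw [add_zero]
  · refine tsum_congr fun h => ?_
    rw [add_zero, one_mul]

/-- [LK-P1] **integer point charges do not change the cosine.**
Route: `phi X0 = E0 (cos ∘ X0) = R.law.Ex b zero (fun φ => cos (pair f φ))` (`C2.ex_eq_E0`, `C2.rc_proper`), `f = domFn (s - q)`.  `chr b s 0 = R.law.Ex b zero (fun φ => cos (vx s φ + fl 0 φ))` by `rfl`; `fl 0 φ = 0`.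
`HLaw.Ex = Z / Z`; in `HLaw.Z` the functional is only evaluated at `φ = 2π (h + 0)`, `h` integer valued (`tsum_congr`): there `pair (domFn (s - q)) φ = vx s φ - 2π ∑ q h`, `∑ q h ∈ ℤ`: `Real.cos_sub_int_mul_two_pi`. -/
theorem lk_phi_eq_chr (R : Rc) (b : ℝ) (s : ℤ × ℤ → ℝ) (q : ℤ × ℤ → ℤ) (X0 : (R.sys b).L →+ ℝ)
    (hX : R.law.Lift b (domFn (D := R.set) (cut := ∅) fun u => s u - (q u : ℝ)) X0) :
    (R.sys b).phi X0 = R.chr b s 0 := by
  unfold Rc.chr Rc.Ex LSys.phi
  refine (lk_ex_heights R.law (Free.fr_proper R) b _ _ fun h hh => ?_).symm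
  refine (congrArg Real.cos (hX h hh)).trans ?_
  have h0 : R.fl 0 (fun v => 2 * Real.pi * (h v : ℝ)) = 0 := by
    unfold Rc.fl
    simp
  rw [h0, add_zero]
  unfold Rc.vx HLaw.pair
  have h1 : ∑ x, domFn (D := R.set) (cut := ∅) (fun u => s u - (q u : ℝ)) x * (2 * Real.pi * (h x : ℝ))
      = ∑ x, domFn (D := R.set) (cut := ∅) s x * (2 * Real.pi * (h x : ℝ))
        - ((∑ x, domFn (D := R.set) (cut := ∅) q x * h x : ℤ) : ℝ) * (2 * Real.pi) := by
    push_cast
    rw [Finset.sum_mul, ← Finset.sum_sub_distrib]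
    refine Finset.sum_congr rfl fun x _ => ?_
    unfold domFn
    ring
  exact (congrArg Real.cos h1).trans (Real.cos_sub_int_mul_two_pi _ _)

/-- summation by parts in height variables, for every real height -/
theorem lk_fl_eq_vx (R : Rc) (w : Bond → ℝ) (φ : R.G.V → ℝ) : R.fl w φ = R.vx (R.dv w) φ := by
  unfold Rc.fl Rc.vx HLaw.pair
  have hdv : ∀ x : R.G.V, domFn (D := R.set) (cut := ∅) (R.dv w) x
      = ∑ e : R.G.E, w (domBond (D := R.set) (cut := ∅) e) *
        ((if R.G.tgt e = x then 1 else 0) - (if R.G.src e = x then 1 else 0)) := by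
    intro x
    show R.dv w x.1 = _
    unfold Rc.dv
    rw [← fr_sum_E R fun e => w e * ((if e.snd = x.1 then 1 else 0) - (if e.1 = x.1 then 1 else 0))]
    refine Finset.sum_congr rfl fun e _ => ?_
    have e1 : (R.G.tgt e = x) ↔ (domBond (D := R.set) (cut := ∅) e).snd = x.1 := by
      constructor
      · intro hx; rw [← hx]; rfl
      · intro hx; exact Subtype.ext hx
    have e2 : (R.G.src e = x) ↔ (domBond (D := R.set) (cut := ∅) e).1 = x.1 := by
      constructor
      · intro hx; rw [← hx]; rfl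
      · intro hx; exact Subtype.ext hx
    simp only [e1, e2]
  have h2 : ∑ x : R.G.V, domFn (D := R.set) (cut := ∅) (R.dv w) x * φ x
      = ∑ x : R.G.V, ∑ e : R.G.E, w (domBond (D := R.set) (cut := ∅) e) *
        ((if R.G.tgt e = x then 1 else 0) - (if R.G.src e = x then 1 else 0)) * φ x :=
    Finset.sum_congr rfl fun x _ => by rw [hdv x, Finset.sum_mul]
  refine Eq.trans ?_ h2.symm
  rw [Finset.sum_comm]
  refine Finset.sum_congr rfl fun e _ => ?_
  have : ∀ x : R.G.V, w (domBond (D := R.set) (cut := ∅) e) *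
        ((if R.G.tgt e = x then 1 else 0) - (if R.G.src e = x then 1 else 0)) * φ x
      = (if R.G.tgt e = x then w (domBond (D := R.set) (cut := ∅) e) * φ x else 0)
        - (if R.G.src e = x then w (domBond (D := R.set) (cut := ∅) e) * φ x else 0) := by
    intro x
    split_ifs <;> ring
  simp only [this, Finset.sum_sub_distrib, Finset.sum_ite_eq, Finset.mem_univ, if_true]
  ring

/-- [LK-P2] **summation by parts in the phase.**
Route: `chr` = `Ex` of `cos (vx s φ + fl w φ)`; for EVERY `φ`: `fl w φ = vx (dv w) φ` (`Finset.sum_comm`, `Finset.sum_ite_eq`; sums over `R.G.E`, `R.G.V` are sums over `R.bd`, `R.set`), `fl 0 φ = 0`, `vx` is additive and only sees `R.set`. -/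
theorem lk_chr_parts (R : Rc) (b : ℝ) (s s' : ℤ × ℤ → ℝ) (w : Bond → ℝ) (h : ∀ v ∈ R.set, s v = s' v + R.dv w v) :
    R.chr b s 0 = R.chr b s' w := by
  unfold Rc.chr
  congr 1
  funext φ
  congr 1
  have h0 : R.fl 0 φ = 0 := by
    unfold Rc.fl
    simp
  rw [h0, add_zero, lk_fl_eq_vx]
  unfold Rc.vx HLaw.pair
  rw [← Finset.sum_add_distrib]
  refine Finset.sum_congr rfl fun x _ => ?_
  have hx : domFn (D := R.set) (cut := ∅) s x
      = domFn (D := R.set) (cut := ∅) s' x + domFn (D := R.set) (cut := ∅) (R.dv w) x := h x.1 x.2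
  exact (congrArg (· * φ x) hx).trans (add_mul _ _ _)

/-- [LK-P3] the uniform probability.  Route: `Rc.unif`, `Finset.sum_congr` + `if_pos`, `Finset.sum_const`, `card R.set = p q` (`Finset.card_product`, `Int.card_Ico`). -/
theorem lk_sum_unif (R : Rc) (hp : 0 < R.p) (hq : 0 < R.q) :
    ∑ v ∈ R.set, R.unif v = 1 ∧ ∑ v ∈ R.set, R.unif v ^ 2 = ((R.p : ℝ) * R.q)⁻¹ := by
  have hc : (R.set.card : ℝ) = (R.p : ℝ) * R.q := by
    unfold Rc.set
    rw [Finset.card_product, Int.card_Ico, Int.card_Ico]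
    simp
  have hpq : ((R.p : ℝ) * R.q) ≠ 0 := by positivity
  have h1 : ∀ v ∈ R.set, R.unif v = ((R.p : ℝ) * R.q)⁻¹ := fun v hv => by
    unfold Rc.unif
    rw [if_pos hv]
  constructor
  · rw [Finset.sum_congr rfl h1, Finset.sum_const, nsmul_eq_mul, hc]
    exact mul_inv_cancel₀ hpq
  · rw [Finset.sum_congr rfl fun v hv => by rw [h1 v hv], Finset.sum_const, nsmul_eq_mul, hc]
    field_simp

end

end Claimed.Agent.R285.Tor
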