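import Claimed.Agent.R285.Tor.LinkDefs

/-!
# ROW 285, LINK FREE → PINS (post BP-LINK-FREEIN, architect helper193): leaves LK-T0, T0', T2, T3, T5 (small facts on the two laws)

Definitions and plan: `Tor/LinkDefs.lean`.  Glue: `Tor/Link.lean` (proved).  RULE: statements verbatim; helper lemmas (prefix `lk_`) directly above the leaf.
-/

set_option autoImplicit false

namespace Claimed.Agent.R285.Tor

open Filter Topology C2 C3 Free
open scoped Classical

noncomputable section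

variable {m₁ m₂ : ℕ}

/-- [LK-T0] the cell test in the new coordinates.  Route: unfold `CGeom.cellTest`, `CGeom.avgRow`, `CGeom.sites`, `domSet`, `DGrid.region` (`Finset.singleton_biUnion`, `Finset.inter_univ`; `(rect m₁ m₂).T = univ` by `rfl`), `lkPos` (`sub_add_cancel`). -/
theorem lk_cellTest (g : DGrid m₁ m₂) (t : Cell m₁ m₂ → ℝ) (v : ((rect m₁ m₂).graph g).V) :
    (rect m₁ m₂).cellTest g t v = lkCt g t (lkPos g v) := by
  unfold CGeom.cellTest lkCt
  refine Finset.sum_congr rfl fun κ _ => ?_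
  congr 1
  have h1 : lkPos g v + lkOrg g = domPos (D := g.region (rect m₁ m₂).T) (cut := (rect m₁ m₂).cutB g) v :=
    sub_add_cancel _ _
  have h2 : g.region ({κ} ∩ (rect m₁ m₂).T) = g.cell κ := by
    have : ({κ} ∩ (rect m₁ m₂).T : Finset (Fin m₁ × Fin m₂)) = {κ} := by simp [rect]
    rw [this]
    simp [DGrid.region]
  have h3 : (v ∈ (rect m₁ m₂).sites g {κ}) ↔ lkPos g v + lkOrg g ∈ g.cell κ := by
    rw [h1]
    show domPos (D := g.region (rect m₁ m₂).T) (cut := (rect m₁ m₂).cutB g) v ∈ (↑(g.region {κ}) : Set (ℤ × ℤ)) ↔ _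
    simp [DGrid.region]
  unfold CGeom.avgRow
  rw [h2]
  by_cases h : lkPos g v + lkOrg g ∈ g.cell κ
  · rw [if_pos h, if_pos (h3.2 h)]
  · rw [if_neg h, if_neg fun h' => h (h3.1 h')]

/-- [LK-T0'] the point charges in the new coordinates.  Route: `lkPos g v + lkOrg g = v.1` (`sub_add_cancel`), `dif_pos v.2`, `Subtype.coe_eta`. -/
theorem lk_ptRow (g : DGrid m₁ m₂) (q : ((rect m₁ m₂).graph g).V → ℤ) (v : ((rect m₁ m₂).graph g).V) :
    ptRow q v = (lkQ g q (lkPos g v) : ℝ) := by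
  have h1 : lkPos g v + lkOrg g = v.1 := sub_add_cancel _ _
  have h2 : lkPos g v + lkOrg g ∈ g.region (rect m₁ m₂).T := by rw [h1]; exact v.2
  unfold ptRow lkQ
  rw [dif_pos h2]
  congr 2
  exact Subtype.ext h1.symm

/-- [LK-T2] lifts are unique.  Route: `AddMonoidHom.ext`; every `z : (H.sys b).L` is `⟨H.coordA b h, _⟩` with `h ∈ H.Λ` (`AddSubgroup.mem_map`, `L = Λ.map coord`). -/
theorem lk_lift_unique {G : HGraph} (H : HLaw G) (b : ℝ) (f : G.V → ℝ) (X X' : (H.sys b).L →+ ℝ) (h : H.Lift b f X)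
    (h' : H.Lift b f X') : X = X' := by
  ext z
  obtain ⟨z, hz⟩ := z
  obtain ⟨h0, hh0, rfl⟩ := AddSubgroup.mem_map.1 hz
  exact (h h0 hh0).trans (h' h0 hh0).symm

/-- [LK-T3] a liftable test of the free law has total zero.  Route: `h = fun _ => 1 ∈ Λ` (no pins: `(rect m₁ m₂).pin = ∅`, `DGrid.region ∅ = ∅`, so `sites = ∅`); `coordA b h = 0` (`Prod.ext`; `O = Fin 0`), so the element of `L` is `0`, `map_zero`;
`hX h` gives `0 = ∑ x, f x * (2 π * 1)`; `Finset.sum_mul`, `Real.pi_pos`. -/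
theorem lk_lift_total (g : DGrid m₁ m₂) (b : ℝ) (f : ((rect m₁ m₂).graph g).V → ℝ) (X : ((lkLaw g).sys b).L →+ ℝ)
    (hX : (lkLaw g).Lift b f X) : ∑ x, f x = 0 := by
  have hmem : (fun _ => 1 : ((rect m₁ m₂).graph g).V → ℤ) ∈ (lkLaw g).Λ := by
    intro v hv
    exfalso
    have hv' : domPos (D := g.region (rect m₁ m₂).T) (cut := (rect m₁ m₂).cutB g) v ∈ g.region (rect m₁ m₂).pin := hv
    simp [rect, DGrid.region] at hv'
  have h1 := hX _ hmem
  have h2 : (⟨(lkLaw g).coordA b (fun _ => 1), (lkLaw g).coordA_mem b hmem⟩ : ((lkLaw g).sys b).L) = 0 := by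
    apply Subtype.ext
    refine Prod.ext ?_ (funext fun o => o.elim0)
    funext e
    exact sub_self _
  rw [h2, map_zero] at h1
  have h3 : ∑ x, f x * (2 * Real.pi * ((1 : ℤ) : ℝ)) = (∑ x, f x) * (2 * Real.pi) := by
    rw [Finset.sum_mul]
    simp
  rw [h3] at h1
  have hpi : (2 * Real.pi) ≠ 0 := by positivity
  exact (mul_eq_zero.1 h1.symm).resolve_right hpi

/-- helper for LK-T5: on a trivial ambient space the free expectation is evaluation at `0`. -/
theorem lk_E0_subsingleton (S : LSys) [Subsingleton S.Amb] (F : S.L → ℝ) : S.E0 F = F 0 := by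
  have hs : ∀ G : S.L → ℝ, S.Zf 0 G = G 0 * S.W 0 := by
    intro G
    unfold LSys.Zf
    rw [tsum_eq_single (0 : S.L) fun z hz => absurd (Subsingleton.elim z 0) hz]
    simp
  have hW : S.W 0 ≠ 0 := by
    have hE : IsEmpty S.E := by
      by_contra hne
      rw [not_isEmpty_iff] at hne
      obtain ⟨e⟩ := hne
      have h1 : ((fun _ => 1, 0) : S.Amb) = (0 : S.Amb) := Subsingleton.elim _ _
      have h2 := congrFun (congrArg Prod.fst h1) e
      simp at h2
    unfold LSys.W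
    rw [Finset.prod_of_isEmpty, one_mul]
    exact (Real.exp_pos _).ne'
  unfold LSys.E0 LSys.Ev LSys.wT
  rw [hs, hs]
  simp only [AddMonoidHom.zero_apply, Real.exp_zero, mul_one, one_mul]
  field_simp

/-- [LK-T5] the degenerate arrays (no cell): everything is zero.
Route: `V` and `E` are empty (`DGrid.region univ = ∅` since `Fin m₁ × Fin m₂` is empty), so `(E → ℤ) × (Fin 0 → ℝ)` is a subsingleton, `L` has the single element `0`: `tsum` over a `Unique` type (`tsum_fintype` / `tsum_eq_single 0`), `W 0 = 1`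
(`Finset.prod_of_isEmpty`), `X 0 = 0`: `E0 (exp ∘ X) = 1`.  `gVar`: all sums are empty, `ciSup_const`. -/
theorem lk_degenerate (hm : m₁ = 0 ∨ m₂ = 0) (g : DGrid m₁ m₂) (a b : ℝ) (f : ((rect m₁ m₂).graph g).V → ℝ)
    (X : ((lkLaw g).sys b).L →+ ℝ) : (lkLaw g).logLap b X = 0 ∧ (lkLaw g).gVar a f = 0 ∧ IsEmpty ((rect m₁ m₂).graph g).V := by
  have hc : IsEmpty (Fin m₁ × Fin m₂) := by
    rcases hm with rfl | rfl
    · exact ⟨fun κ => κ.1.elim0⟩
    · exact ⟨fun κ => κ.2.elim0⟩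
  have hreg : g.region (rect m₁ m₂).T = ∅ := by
    unfold DGrid.region
    rw [Finset.eq_empty_of_isEmpty (rect m₁ m₂).T, Finset.biUnion_empty]
  have hV : IsEmpty ((rect m₁ m₂).graph g).V := ⟨fun v => by
    have h1 : ∀ w : {x : ℤ × ℤ // x ∈ g.region (rect m₁ m₂).T}, False := fun w =>
      Finset.notMem_empty w.1 (hreg ▸ w.2)
    exact h1 v⟩
  have hE : IsEmpty ((rect m₁ m₂).graph g).E := ⟨fun e => hV.false (((rect m₁ m₂).graph g).src e)⟩
  refine ⟨?_, ?_, hV⟩
  · have hsub : Subsingleton ((lkLaw g).sys b).Amb :=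
      ⟨fun x y => Prod.ext (funext fun e => (hE.false e).elim) (funext fun o => o.elim0)⟩
    unfold HLaw.logLap
    rw [lk_E0_subsingleton, map_zero, Real.exp_zero, Real.log_one]
  · unfold HLaw.gVar HLaw.form HLaw.en
    have h3 : ∀ v : ((rect m₁ m₂).graph g).V → ℝ, ∑ o, (lkLaw g).obs v o ^ 2 = 0 := fun v =>
      Finset.sum_of_isEmpty (ι := Fin 0) _
    simp only [Finset.sum_of_isEmpty, h3, mul_zero, add_zero, sub_zero]
    exact ciSup_const

end

end Claimed.Agent.R285.Tor
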