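import Claimed.Agent.R285.Tor.LinkG

/-!
# ROW 285, LINK FREE → PINS (post BP-LINK-FREEIN, architect helper193): leaves LK-T1, LK-T4 (transfer between the two laws)

Definitions and plan: `Tor/LinkDefs.lean`.  Glue: `Tor/Link.lean` (proved).  RULE: statements verbatim; helper lemmas (prefix `lk_`) directly above the leaf.
-/

set_option autoImplicit false

namespace Claimed.Agent.R285.Tor

open Filter Topology C2 C3 Free
open scoped Classical

noncomputable section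

variable {m₁ m₂ : ℕ}

theorem lk_snd_add (e : Bond) (u : ℤ × ℤ) : Bond.snd (e.1 + u, e.2) = e.snd + u := by
  unfold Bond.snd
  split_ifs <;> ext <;> simp <;> ring

theorem lk_snd_sub (e : Bond) (u : ℤ × ℤ) : Bond.snd (e.1 - u, e.2) = e.snd - u := by
  rw [sub_eq_add_neg, lk_snd_add, ← sub_eq_add_neg]

theorem lk_mem_domBonds {D : Finset (ℤ × ℤ)} {cut : Set Bond} {e : Bond} :
    e ∈ domBonds D cut ↔ e.1 ∈ D ∧ e.snd ∈ D ∧ e ∉ cut := by
  unfold domBonds
  simp [Finset.mem_filter, Finset.mem_product, and_assoc]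

theorem lk_notMem_cut (g : DGrid m₁ m₂) (e : Bond) : e ∉ (rect m₁ m₂).cutB g := by
  rintro ⟨f, hf, -⟩
  simp [rect] at hf

theorem lk_mem_region' (g : DGrid m₁ m₂) (u : ℤ × ℤ) :
    u + lkOrg g ∈ g.region (rect m₁ m₂).T ↔ u ∈ (lkRc g).set := by
  have := lk_mem_region g (u + lkOrg g)
  rwa [add_sub_cancel_right] at this

/-- the bonds of the two graphs -/
theorem lk_mem_bonds (g : DGrid m₁ m₂) (e : Bond) :
    (e.1 + lkOrg g, e.2) ∈ domBonds (g.region (rect m₁ m₂).T) ((rect m₁ m₂).cutB g) ↔ e ∈ domBonds (lkRc g).set ∅ := by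
  rw [lk_mem_domBonds, lk_mem_domBonds, lk_snd_add, lk_mem_region', lk_mem_region']
  simp [lk_notMem_cut]

/-- the vertices of the two graphs -/
def lkEV (g : DGrid m₁ m₂) : (lkRc g).G.V ≃ ((rect m₁ m₂).graph g).V where
  toFun u := ⟨u.1 + lkOrg g, (lk_mem_region' g u.1).2 u.2⟩
  invFun v := ⟨v.1 - lkOrg g, (lk_mem_region g v.1).1 v.2⟩
  left_inv u := Subtype.ext (add_sub_cancel_right _ _)
  right_inv v := Subtype.ext (sub_add_cancel _ _)

/-- the edges of the two graphs -/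
def lkEE (g : DGrid m₁ m₂) : (lkRc g).G.E ≃ ((rect m₁ m₂).graph g).E where
  toFun e := ⟨(e.1.1 + lkOrg g, e.1.2), (lk_mem_bonds g e.1).2 e.2⟩
  invFun e := ⟨(e.1.1 - lkOrg g, e.1.2), (lk_mem_bonds g (e.1.1 - lkOrg g, e.1.2)).1 (by
    simp only [sub_add_cancel]
    exact e.2)⟩
  left_inv e := Subtype.ext (by simp)
  right_inv e := Subtype.ext (by simp)

theorem lkEV_src (g : DGrid m₁ m₂) (e : (lkRc g).G.E) :
    ((rect m₁ m₂).graph g).src (lkEE g e) = lkEV g ((lkRc g).G.src e) := rfl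

theorem lkEV_tgt (g : DGrid m₁ m₂) (e : (lkRc g).G.E) :
    ((rect m₁ m₂).graph g).tgt (lkEE g e) = lkEV g ((lkRc g).G.tgt e) :=
  Subtype.ext (lk_snd_add e.1 (lkOrg g))

theorem lkPos_EV (g : DGrid m₁ m₂) (u : (lkRc g).G.V) : lkPos g (lkEV g u) = u.1 := add_sub_cancel_right _ _

/-- every integer height is allowed in the free law -/
theorem lk_mem_Lam (g : DGrid m₁ m₂) (h : ((rect m₁ m₂).graph g).V → ℤ) : h ∈ (lkLaw g).Λ := by
  intro v hv
  exfalso
  have hv' : domPos (D := g.region (rect m₁ m₂).T) (cut := (rect m₁ m₂).cutB g) v ∈ g.region (rect m₁ m₂).pin := hv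
  simp [rect, DGrid.region] at hv'

/-- the relabelling -/
def lkIso (g : DGrid m₁ m₂) (b : ℝ) : SIso ((lkRc g).sys b) ((lkLaw g).sys b) where
  eE := lkEE g
  eO := Equiv.equivOfIsEmpty Empty (Fin 0)
  sE := fun _ => 1
  sO := fun _ => 1
  hsE := fun _ => Or.inl rfl
  hsO := fun _ => Or.inl rfl
  hb := fun _ => rfl
  mem := fun z => by
    rw [fr_mem_L]
    constructor
    · rintro ⟨h, hh⟩
      refine AddSubgroup.mem_map.2 ⟨fun v => h (lkPos g v), lk_mem_Lam g _, ?_⟩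
      refine Prod.ext ?_ (funext fun o => o.elim0)
      funext e'
      have h1 := hh ((lkEE g).symm e')
      have h2 : (domBond (D := (lkRc g).set) (cut := ∅) ((lkEE g).symm e')).snd
          = lkPos g (((rect m₁ m₂).graph g).tgt e') := lk_snd_sub e'.1 (lkOrg g)
      have h3 : (domBond (D := (lkRc g).set) (cut := ∅) ((lkEE g).symm e')).1
          = lkPos g (((rect m₁ m₂).graph g).src e') := rfl
      rw [h2, h3] at h1
      exact ((one_mul _).trans h1).symm
    · intro hz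
      obtain ⟨h', -, hh'⟩ := AddSubgroup.mem_map.1 hz
      refine ⟨fun u => if hu : u ∈ (lkRc g).set then h' (lkEV g ⟨u, hu⟩) else 0, fun e => ?_⟩
      have h1 : h' (((rect m₁ m₂).graph g).tgt (lkEE g e)) - h' (((rect m₁ m₂).graph g).src (lkEE g e))
          = 1 * z.1 ((lkEE g).symm (lkEE g e)) := congrFun (congrArg Prod.fst hh') (lkEE g e)
      have h4 : z.1 ((lkEE g).symm (lkEE g e)) = z.1 e := congrArg z.1 ((lkEE g).symm_apply_apply e)
      have h2 : (domBond (D := (lkRc g).set) (cut := ∅) e).snd ∈ (lkRc g).set := domBonds_snd e.2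
      have h3 : (domBond (D := (lkRc g).set) (cut := ∅) e).1 ∈ (lkRc g).set := domBonds_fst e.2
      simp only [dif_pos h2, dif_pos h3]
      rw [lkEV_tgt, lkEV_src, one_mul] at h1
      exact h4.symm.trans h1.symm

theorem lkIso_coordA (g : DGrid m₁ m₂) (b : ℝ) (h0 : (lkRc g).G.V → ℤ) :
    (lkIso g b).map ((lkRc g).law.coordA b h0) = (lkLaw g).coordA b fun v => h0 ((lkEV g).symm v) := by
  refine Prod.ext ?_ (funext fun o => o.elim0)
  funext e'
  obtain ⟨e, rfl⟩ := (lkEE g).surjective e'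
  have h1 : h0 ((lkEV g).symm (((rect m₁ m₂).graph g).tgt (lkEE g e))) = h0 ((lkRc g).G.tgt e) := by
    rw [lkEV_tgt, Equiv.symm_apply_apply]
  have h2 : h0 ((lkEV g).symm (((rect m₁ m₂).graph g).src (lkEE g e))) = h0 ((lkRc g).G.src e) := by
    rw [lkEV_src, Equiv.symm_apply_apply]
  have h3 : (1 : ℤ) * (h0 ((lkRc g).G.tgt ((lkEE g).symm (lkEE g e))) - h0 ((lkRc g).G.src ((lkEE g).symm (lkEE g e))))
      = h0 ((lkEV g).symm (((rect m₁ m₂).graph g).tgt (lkEE g e)))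
        - h0 ((lkEV g).symm (((rect m₁ m₂).graph g).src (lkEE g e))) := by
    rw [h1, h2, Equiv.symm_apply_apply, one_mul]
  exact h3

/-- [LK-T1] **transfer of lifted tests.**
Route.  Build `i : SIso ((lkRc g).sys b) ((lkLaw g).sys b)`: `eE` : the bond `e` of `lkRc g` goes to `(e.1 + lkOrg g, e.2)` (membership: `domBonds`, `lk_mem_region`, `(rect m₁ m₂).cutB g = ∅` since `cutF = ∅`), `eO : Empty ≃ Fin 0`, all signs `1`.
`mem`: `fr_mem_L` on the left (gradients of integer functions on `ℤ²`); on the right `L = Λ.map coord`, `Λ = pinned ∅ = ⊤` (`(rect m₁ m₂).pin = ∅`, `region ∅ = ∅`): gradients of arbitrary `h : V → ℤ`; extend `h` by zero / restrict.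
`X0 := X.comp i.mapL`; `siso_E0 i`.  `Lift`: for `h0 ∈ (lkRc g).law.Λ` put `h v := h0 ⟨lkPos g v, _⟩`; then `i.mapL ⟨coordA h0, _⟩ = ⟨coordA h, _⟩` (`Subtype.ext`, `Prod.ext`, `funext`), `hX h`, and `lk_sum_pos`-type reindexing of the sum. -/
theorem lk_transfer (g : DGrid m₁ m₂) (b : ℝ) (f : ((rect m₁ m₂).graph g).V → ℝ) (f0 : ℤ × ℤ → ℝ)
    (hf : ∀ v, f v = f0 (lkPos g v)) (X : ((lkLaw g).sys b).L →+ ℝ) (hX : (lkLaw g).Lift b f X) :
    ∃ X0 : ((lkRc g).sys b).L →+ ℝ, (lkRc g).law.Lift b (domFn (D := (lkRc g).set) (cut := ∅) f0) X0 ∧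
      ∀ F : ℝ → ℝ, ((lkLaw g).sys b).E0 (fun z => F (X z)) = ((lkRc g).sys b).E0 fun z => F (X0 z) := by
  refine ⟨X.comp (lkIso g b).mapL, fun h0 hh0 => ?_, fun F => siso_E0 (lkIso g b) fun z => F (X z)⟩
  have h1 : (lkIso g b).mapL ⟨(lkRc g).law.coordA b h0, (lkRc g).law.coordA_mem b hh0⟩
      = ⟨(lkLaw g).coordA b fun v => h0 ((lkEV g).symm v), (lkLaw g).coordA_mem b (lk_mem_Lam g _)⟩ :=
    Subtype.ext (lkIso_coordA g b h0)
  have h2 := hX _ (lk_mem_Lam g fun v => h0 ((lkEV g).symm v))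
  rw [← Equiv.sum_comp (lkEV g)] at h2
  refine ((congrArg X h1).trans h2).trans (Finset.sum_congr rfl fun u _ => ?_)
  rw [hf, lkPos_EV, Equiv.symm_apply_apply]
  rfl

/-- a real field whose support consists of vertices with free unit heights lies in the real span of the constraint lattice -/
theorem lk_mem_rspan {G : HGraph} (H : HLaw G) (v : G.V → ℝ)
    (h : ∀ x, v x ≠ 0 → (Pi.single x (1 : ℤ) : G.V → ℤ) ∈ H.Λ) : v ∈ H.rspan := by
  have h1 : v = ∑ x, v x • (fun y => (((Pi.single x (1 : ℤ) : G.V → ℤ) y : ℤ) : ℝ)) := by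
    funext y
    simp only [Finset.sum_apply, Pi.smul_apply, smul_eq_mul]
    rw [Finset.sum_eq_single y]
    · simp
    · intro x _ hx
      simp [Pi.single_apply, Ne.symm hx]
    · intro hy
      exact absurd (Finset.mem_univ y) hy
  rw [h1]
  refine Submodule.sum_mem _ fun x _ => ?_
  by_cases hx : v x = 0
  · rw [hx, zero_smul]
    exact zero_mem _
  · exact Submodule.smul_mem _ _ (Submodule.subset_span ⟨_, h x hx, rfl⟩)

/-- the functional of the Gaussian reference -/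
def lkPhi {G : HGraph} (H : HLaw G) (a : ℝ) (f v : G.V → ℝ) : ℝ := 2 * ∑ x, f x * v x - H.form a v

theorem lk_gVar_eq {G : HGraph} (H : HLaw G) (a : ℝ) (f : G.V → ℝ) :
    H.gVar a f = sSup (Set.range fun v : H.rspan => lkPhi H a f (v : G.V → ℝ)) := rfl

/-- the functional in the new coordinates -/
theorem lkPhi_EV (g : DGrid m₁ m₂) (a : ℝ) (f : ((rect m₁ m₂).graph g).V → ℝ) (f0 : ℤ × ℤ → ℝ)
    (hf : ∀ v, f v = f0 (lkPos g v)) (v : ((rect m₁ m₂).graph g).V → ℝ) :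
    lkPhi (lkLaw g) a f v = lkPhi (lkRc g).law a (domFn (D := (lkRc g).set) (cut := ∅) f0) fun u => v (lkEV g u) := by
  have h1 : ∑ x, f x * v x = ∑ u, domFn (D := (lkRc g).set) (cut := ∅) f0 u * v (lkEV g u) := by
    rw [← Equiv.sum_comp (lkEV g)]
    refine Finset.sum_congr rfl fun u _ => ?_
    rw [hf, lkPos_EV]
    rfl
  have h2 : HLaw.en v 0 = HLaw.en (G := (lkRc g).G) (fun u => v (lkEV g u)) 0 := by
    unfold HLaw.en
    rw [← Equiv.sum_comp (lkEE g)]
    refine Finset.sum_congr rfl fun e _ => ?_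
    rw [lkEV_tgt, lkEV_src]
    rfl
  have h3 : ∑ o, (lkLaw g).obs v o ^ 2 = 0 := Finset.sum_of_isEmpty (ι := Fin 0) _
  have h4 : ∑ o, (lkRc g).law.obs (fun u => v (lkEV g u)) o ^ 2 = 0 := Finset.sum_of_isEmpty (ι := Empty) _
  unfold lkPhi HLaw.form
  rw [h1, h2, h3, h4]
  rfl

/-- constants are not seen -/
theorem lkPhi_const (R : Rc) (a : ℝ) (f v : R.G.V → ℝ) (h0 : ∑ x, f x = 0) (c : ℝ) :
    lkPhi R.law a f (fun u => v u - c) = lkPhi R.law a f v := by
  have h1 : ∑ x, f x * (v x - c) = ∑ x, f x * v x := by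
    simp only [mul_sub, Finset.sum_sub_distrib, ← Finset.sum_mul, h0, zero_mul, sub_zero]
  have h2 : HLaw.en (G := R.G) (fun u => v u - c) 0 = HLaw.en v 0 := by
    unfold HLaw.en
    refine Finset.sum_congr rfl fun e _ => ?_
    ring
  have h3 : ∑ o, R.law.obs (fun u => v u - c) o ^ 2 = 0 := Finset.sum_of_isEmpty (ι := Empty) _
  have h4 : ∑ o, R.law.obs v o ^ 2 = 0 := Finset.sum_of_isEmpty (ι := Empty) _
  unfold lkPhi HLaw.form
  rw [h1, h2, h3, h4]

theorem lk_zero_mem (hm₁ : 0 < m₁) (hm₂ : 0 < m₂) (g : DGrid m₁ m₂) : ((0, 0) : ℤ × ℤ) ∈ (lkRc g).set := by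
  have h1 : g.x₁ 0 < g.x₁ (Fin.last m₁) := g.mono₁ (by simpa [Fin.lt_def] using hm₁)
  have h2 : g.x₂ 0 < g.x₂ (Fin.last m₂) := g.mono₂ (by simpa [Fin.lt_def] using hm₂)
  simp only [Rc.set, lkRc, Finset.mem_product, Finset.mem_Ico, le_refl, zero_add, true_and]
  constructor <;> omega

/-- [LK-T4] **the Gaussian references agree** (tests of total zero).
Route: `gVar = ⨆ = sSup (range ..)`: show that the two ranges are EQUAL as sets.  `(lkLaw g).rspan = ⊤` (`Λ = ⊤`; the indicator functions span), `(lkRc g).law.rspan ⊇ {v | v o = 0}` (indicators of the vertices `≠ o`), `o = ⟨(0,0), _⟩` (`hm₁`, `hm₂`: `p, q > 0`).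
`v ↦ v0 := (u ↦ v (u + org) - v (org))` and `v0 ↦ v := v0 ∘ lkPos`; the pairing does not see the constant (`h0`), `en` does not see it, there are no observations (`Fin 0`, `Empty`);
sums over vertices: `lk_sum_pos`; sums over edges: the bijection of the bonds as in `lk_transfer`. -/
theorem lk_gVar (hm₁ : 0 < m₁) (hm₂ : 0 < m₂) (g : DGrid m₁ m₂) (a : ℝ) (f : ((rect m₁ m₂).graph g).V → ℝ) (f0 : ℤ × ℤ → ℝ)
    (hf : ∀ v, f v = f0 (lkPos g v)) (h0 : ∑ x, f x = 0) :
    (lkLaw g).gVar a f = (lkRc g).law.gVar a (domFn (D := (lkRc g).set) (cut := ∅) f0) := by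
  refine (lk_gVar_eq (lkLaw g) a f).trans (Eq.trans ?_ (lk_gVar_eq (lkRc g).law a _).symm)
  congr 1
  have h0' : ∑ u : (lkRc g).G.V, domFn (D := (lkRc g).set) (cut := ∅) f0 u = 0 := by
    rw [← h0, ← Equiv.sum_comp (lkEV g)]
    refine Finset.sum_congr rfl fun u _ => ?_
    rw [hf, lkPos_EV]
    rfl
  let o : (lkRc g).G.V := ⟨(0, 0), lk_zero_mem hm₁ hm₂ g⟩
  ext r
  constructor
  · rintro ⟨v, rfl⟩
    have hmem : (fun u => (v : ((rect m₁ m₂).graph g).V → ℝ) (lkEV g u) - (v : ((rect m₁ m₂).graph g).V → ℝ) (lkEV g o))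
        ∈ (lkRc g).law.rspan := by
      refine lk_mem_rspan _ _ fun x hx y hy => ?_
      have hy' : y = o := Subtype.ext hy
      have hxy : y ≠ x := by
        rintro rfl
        apply hx
        rw [hy']
        ring
      simp [hxy]
    refine ⟨⟨_, hmem⟩, ?_⟩
    show lkPhi _ _ _ _ = lkPhi _ _ _ _
    rw [lkPhi_const (lkRc g) a _ _ h0', ← lkPhi_EV g a f f0 hf]
  · rintro ⟨v0, rfl⟩
    have hmem : (fun x => (v0 : (lkRc g).G.V → ℝ) ((lkEV g).symm x)) ∈ (lkLaw g).rspan :=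
      lk_mem_rspan _ _ fun x _ => lk_mem_Lam g _
    refine ⟨⟨_, hmem⟩, ?_⟩
    show lkPhi _ _ _ _ = lkPhi _ _ _ _
    rw [lkPhi_EV g a f f0 hf]
    simp only [Equiv.symm_apply_apply]

end

end Claimed.Agent.R285.Tor
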