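import Claimed.Agent.R285.Tor.LinkG
import Claimed.Agent.R285.Tor.LinkS
import Claimed.Agent.R285.Tor.LinkT
import Claimed.Agent.R285.Tor.LinkP

/-!
# ROW 285, LINK FREE → PINS (post BP-LINK-FREEIN, architect helper193): THE GLUE (no sorry in this file)

`lk_scen : C2.ScaleCoef b n a → 0 < a → C3.Scen a b n`   from the leaves `LK-*` of `Tor/LinkG, LinkS, LinkT, LinkP.lean` and the contracts of `Read/C2.lean`
(`reg_smear`, `reg_bdd`, `free_laplace`, `gradX_lift`, `gVar_grad`, `uniform_phase`).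
-/

set_option autoImplicit false

namespace Claimed.Agent.R285.Tor

open Filter Topology C2 C3 Free
open scoped Classical

noncomputable section

/-- **Laplace limits for vertex tests** of total zero with bounded scaled `ℓ²` norm, on nondegenerate rectangles. -/
theorem lk_laplace {b : ℕ → ℝ} {n : ℕ → ℕ} {a : ℝ} (hS : ScaleCoef b n a) (ha : 0 < a) {R : ℕ → Rc} (hR : AdmN n R)
    (F : ℕ → ℤ × ℤ → ℝ) (C : ℝ) (h0 : ∀ k, ∑ v ∈ (R k).set, F k v = 0)
    (h1 : ∀ k, (n k : ℝ) ^ 2 * ∑ v ∈ (R k).set, F k v ^ 2 ≤ C)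
    (X0 : ∀ k, ((R k).sys (b k)).L →+ ℝ)
    (hX : ∀ k, (R k).law.Lift (b k) (domFn (D := (R k).set) (cut := ∅) (F k)) (X0 k)) :
    Tendsto (fun k => (R k).law.logLap (b k) (X0 k)
      - (R k).law.gVar a (domFn (D := (R k).set) (cut := ∅) (F k)) / 2) atTop (𝓝 0) := by
  obtain ⟨γ, hγ, hlap⟩ := reg_smear hS.2.1 hR F (fun _ _ => 0) (max C 0) (by simpa using h0)
    (fun k => (h1 k).trans (le_max_left _ _)) (fun k => by simp) (fun k v _ _ => rfl)
  have e : ∀ k, domFn (D := (R k).set) (cut := ∅) (F k) = domFn (D := (R k).set) (cut := ∅) ((R k).lap (γ k)) := by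
    intro k
    funext v
    have := hlap k v.1 v.2
    simp only [add_zero] at this
    exact this.symm
  have hX' : ∀ k, X0 k = (R k).gradX (b k) (γ k) := fun k =>
    lk_lift_unique _ _ _ _ _ (hX k) (by rw [e k]; exact gradX_lift (R k) (b k) (γ k))
  refine (free_laplace hS hR.1 hγ).congr fun k => ?_
  rw [e k, gVar_grad (R k) a ha, hX' k]
  have : (R k).law.logLap (b k) ((R k).gradX (b k) (γ k)) = (R k).lmgf (b k) (gd (γ k)) := rfl
  rw [this]
  ring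

/-- positivity of the sides of a rectangle carrying a nonzero total -/
theorem lk_sides_pos (R : Rc) (s : ℤ × ℤ → ℝ) (h : ∑ v ∈ R.set, s v ≠ 0) : 0 < R.p ∧ 0 < R.q := by
  constructor
  · by_contra hp
    apply h
    have : R.set = ∅ := by
      have hp0 : R.p = 0 := by omega
      simp [Rc.set, hp0]
    rw [this, Finset.sum_empty]
  · by_contra hq
    apply h
    have : R.set = ∅ := by
      have hq0 : R.q = 0 := by omega
      simp [Rc.set, hq0]
    rw [this, Finset.sum_empty]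

/-- scaled `ℓ²` norm of the uniform probability -/
theorem lk_unif_sq {n : ℕ → ℕ} {R : ℕ → Rc} {c : ℝ} (hc : 0 < c) (hcR : ∀ k, c * n k ≤ (R k).p ∧ c * n k ≤ (R k).q) (k : ℕ)
    (hp : 0 < (R k).p) (hq : 0 < (R k).q) : (n k : ℝ) ^ 2 * ∑ v ∈ (R k).set, (R k).unif v ^ 2 ≤ (c ^ 2)⁻¹ := by
  rw [(lk_sum_unif (R k) hp hq).2]
  have hp' : (0 : ℝ) < (R k).p := by exact_mod_cast hp
  have hq' : (0 : ℝ) < (R k).q := by exact_mod_cast hq
  have h1 : (c * n k) * (c * n k) ≤ (R k).p * (R k).q :=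
    mul_le_mul (hcR k).1 (hcR k).2 (by positivity) hp'.le
  rw [← div_eq_mul_inv, div_le_iff₀ (by positivity), ← div_eq_inv_mul, le_div_iff₀ (by positivity)]
  nlinarith [h1]

/-- **vanishing phases, fixed nonzero total charge.** -/
theorem lk_phase_fixed {b : ℕ → ℝ} {n : ℕ → ℕ} {a : ℝ} (hS : ScaleCoef b n a) (ha : 0 < a) {R : ℕ → Rc} (hR : AdmN n R)
    (l : ℤ) (hl : l ≠ 0) (s : ℕ → ℤ × ℤ → ℝ) (C : ℝ) (h0 : ∀ k, ∑ v ∈ (R k).set, s k v = l)
    (h1 : ∀ k, (n k : ℝ) ^ 2 * ∑ v ∈ (R k).set, s k v ^ 2 ≤ C) :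
    Tendsto (fun k => (R k).chr (b k) (s k) 0) atTop (𝓝 0) := by
  obtain ⟨c, hc, hcR⟩ := hR.2
  have hl' : (l : ℝ) ≠ 0 := by exact_mod_cast hl
  have hpq : ∀ k, 0 < (R k).p ∧ 0 < (R k).q := fun k => lk_sides_pos (R k) (s k) (by rw [h0 k]; exact hl')
  obtain ⟨γ, hγ, hlap⟩ := reg_smear hS.2.1 hR (fun k v => s k v - l * (R k).unif v) (fun _ _ => 0)
    (max (2 * C + 2 * (l : ℝ) ^ 2 * (c ^ 2)⁻¹) 0)
    (fun k => by
      simp only [add_zero]
      rw [Finset.sum_sub_distrib, ← Finset.mul_sum, (lk_sum_unif (R k) (hpq k).1 (hpq k).2).1, h0 k]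
      ring)
    (fun k => by
      refine le_trans ?_ (le_max_left _ _)
      have h2 : ∑ v ∈ (R k).set, (s k v - l * (R k).unif v) ^ 2
          ≤ 2 * ∑ v ∈ (R k).set, s k v ^ 2 + 2 * (l : ℝ) ^ 2 * ∑ v ∈ (R k).set, (R k).unif v ^ 2 := by
        rw [Finset.mul_sum, Finset.mul_sum, ← Finset.sum_add_distrib]
        refine Finset.sum_le_sum fun v _ => ?_
        nlinarith [sq_nonneg (s k v + l * (R k).unif v)]
      have h3 := lk_unif_sq hc hcR k (hpq k).1 (hpq k).2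
      have h4 : (0 : ℝ) ≤ (n k : ℝ) ^ 2 := by positivity
      calc (n k : ℝ) ^ 2 * ∑ v ∈ (R k).set, (s k v - l * (R k).unif v) ^ 2
          ≤ (n k : ℝ) ^ 2 * (2 * ∑ v ∈ (R k).set, s k v ^ 2 + 2 * (l : ℝ) ^ 2 * ∑ v ∈ (R k).set, (R k).unif v ^ 2) :=
            mul_le_mul_of_nonneg_left h2 h4
        _ = 2 * ((n k : ℝ) ^ 2 * ∑ v ∈ (R k).set, s k v ^ 2)
            + 2 * (l : ℝ) ^ 2 * ((n k : ℝ) ^ 2 * ∑ v ∈ (R k).set, (R k).unif v ^ 2) := by ring
        _ ≤ 2 * C + 2 * (l : ℝ) ^ 2 * (c ^ 2)⁻¹ := by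
            have h5 : (0 : ℝ) ≤ 2 * (l : ℝ) ^ 2 := by positivity
            nlinarith [h1 k, mul_le_mul_of_nonneg_left h3 h5])
    (fun k => by simp) (fun k v _ _ => rfl)
  obtain ⟨C', hC'⟩ := reg_bdd hS.2.1 hR.1 hγ
  let w : ℕ → Bond → ℝ := fun k => if (R k).dir (γ k) ≤ C' then gd (γ k) else 0
  have hw : ∀ k, (R k).cost (w k) ≤ max C' 0 := by
    intro k
    by_cases h : (R k).dir (γ k) ≤ C'
    · simp only [w, if_pos h]
      exact le_trans h (le_max_left _ _)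
    · simp only [w, if_neg h]
      refine le_trans (le_of_eq ?_) (le_max_right _ _)
      simp [Rc.cost]
  refine (uniform_phase hS ha hR l hl w (max C' 0) hw).congr' ?_
  filter_upwards [hC'] with k hk
  simp only [w, if_pos hk]
  refine (lk_chr_parts (R k) (b k) (s k) _ (gd (γ k)) fun v hv => ?_).symm
  have h2 : (R k).dv (gd (γ k)) v = s k v - l * (R k).unif v + 0 := hlap k v hv
  rw [h2]
  ring

/-- **vanishing phases**: nonzero integer total charges in a bounded set. -/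
theorem lk_phase {b : ℕ → ℝ} {n : ℕ → ℕ} {a : ℝ} (hS : ScaleCoef b n a) (ha : 0 < a) {R : ℕ → Rc} (hR : AdmN n R)
    (s : ℕ → ℤ × ℤ → ℝ) (C B : ℝ) (l : ℕ → ℤ) (hl : ∀ k, l k ≠ 0) (hB : ∀ k, |(l k : ℝ)| ≤ B)
    (h0 : ∀ k, ∑ v ∈ (R k).set, s k v = l k) (h1 : ∀ k, (n k : ℝ) ^ 2 * ∑ v ∈ (R k).set, s k v ^ 2 ≤ C) :
    Tendsto (fun k => (R k).chr (b k) (s k) 0) atTop (𝓝 0) := by
  obtain ⟨c, hc, hcR⟩ := hR.2
  have hpq : ∀ k, 0 < (R k).p ∧ 0 < (R k).q := fun k =>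
    lk_sides_pos (R k) (s k) (by rw [h0 k]; exact_mod_cast hl k)
  let J : Finset ℤ := (Finset.Icc (-⌈B⌉) ⌈B⌉).filter fun j => j ≠ 0
  have hJ : ∀ k, l k ∈ J := by
    intro k
    have h2 := abs_le.1 (hB k)
    refine Finset.mem_filter.2 ⟨Finset.mem_Icc.2 ⟨?_, ?_⟩, hl k⟩
    · have : -(⌈B⌉ : ℝ) ≤ (l k : ℝ) := by linarith [Int.le_ceil B]
      exact_mod_cast this
    · exact Int.le_ceil_iff.2 (by linarith [h2.2]) |> fun h => h
  let σ : ℤ → ℕ → ℤ × ℤ → ℝ := fun j k => if l k = j then s k else fun v => j * (R k).unif v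
  have hσ : ∀ j ∈ J, Tendsto (fun k => (R k).chr (b k) (σ j k) 0) atTop (𝓝 0) := by
    intro j hj
    have hj0 : j ≠ 0 := (Finset.mem_filter.1 hj).2
    refine lk_phase_fixed hS ha hR j hj0 (σ j) (max C ((j : ℝ) ^ 2 * (c ^ 2)⁻¹)) (fun k => ?_) (fun k => ?_)
    · by_cases h : l k = j
      · simp only [σ, if_pos h]
        rw [h0 k, h]
      · simp only [σ, if_neg h]
        rw [← Finset.mul_sum, (lk_sum_unif (R k) (hpq k).1 (hpq k).2).1, mul_one]
    · by_cases h : l k = j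
      · simp only [σ, if_pos h]
        exact (h1 k).trans (le_max_left _ _)
      · simp only [σ, if_neg h]
        refine le_trans ?_ (le_max_right _ _)
        have h3 := lk_unif_sq hc hcR k (hpq k).1 (hpq k).2
        simp only [mul_pow]
        rw [← Finset.mul_sum]
        have h5 : (0 : ℝ) ≤ (j : ℝ) ^ 2 := by positivity
        calc (n k : ℝ) ^ 2 * ((j : ℝ) ^ 2 * ∑ v ∈ (R k).set, (R k).unif v ^ 2)
            = (j : ℝ) ^ 2 * ((n k : ℝ) ^ 2 * ∑ v ∈ (R k).set, (R k).unif v ^ 2) := by ring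
          _ ≤ (j : ℝ) ^ 2 * (c ^ 2)⁻¹ := mul_le_mul_of_nonneg_left h3 h5
  have hsum : Tendsto (fun k => ∑ j ∈ J, |(R k).chr (b k) (σ j k) 0|) atTop (𝓝 0) := by
    have := tendsto_finsetSum J fun j hj => (hσ j hj).abs
    simpa using this
  refine squeeze_zero_norm (fun k => ?_) hsum
  rw [Real.norm_eq_abs]
  have h2 : (R k).chr (b k) (s k) 0 = (R k).chr (b k) (σ (l k) k) 0 := by simp only [σ, if_true]
  rw [h2]
  exact Finset.single_le_sum (f := fun j => |(R k).chr (b k) (σ j k) 0|) (fun j _ => abs_nonneg _) (hJ k)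

/-- the scaled `ℓ²` norm of the cell tests at the scale `n` -/
theorem lk_sq_ct_n {m₁ m₂ K : ℕ} {g : ℕ → DGrid m₁ m₂} {ν' n : ℕ → ℕ} (hg : Admissible K g ν') {c : ℕ}
    (hc : ∀ k, n k ≤ c * ν' k ∧ ν' k ≤ c * n k) (t : ℕ → Cell m₁ m₂ → ℝ) (Tb : ℝ) (ht : ∀ k κ, |t k κ| ≤ Tb) (k : ℕ) :
    (n k : ℝ) ^ 2 * ∑ u ∈ (lkRc (g k)).set, lkCt (g k) (t k) u ^ 2 ≤ (c : ℝ) ^ 2 * (((m₁ * m₂ : ℕ) : ℝ) ^ 2 * Tb ^ 2) := by
  have h1 := lk_sq_ct (g k) (t k) Tb (ht k) (ν' k) (hg.2 k).1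
  have h2 : (n k : ℝ) ≤ c * ν' k := by exact_mod_cast (hc k).1
  have h3 : (n k : ℝ) ^ 2 ≤ (c * ν' k : ℝ) ^ 2 := pow_le_pow_left₀ (by positivity) h2 2
  have h4 : 0 ≤ ∑ u ∈ (lkRc (g k)).set, lkCt (g k) (t k) u ^ 2 := Finset.sum_nonneg fun u _ => sq_nonneg _
  calc (n k : ℝ) ^ 2 * ∑ u ∈ (lkRc (g k)).set, lkCt (g k) (t k) u ^ 2
      ≤ (c * ν' k : ℝ) ^ 2 * ∑ u ∈ (lkRc (g k)).set, lkCt (g k) (t k) u ^ 2 := mul_le_mul_of_nonneg_right h3 h4
    _ = (c : ℝ) ^ 2 * ((ν' k : ℝ) ^ 2 * ∑ u ∈ (lkRc (g k)).set, lkCt (g k) (t k) u ^ 2) := by ring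
    _ ≤ (c : ℝ) ^ 2 * (((m₁ * m₂ : ℕ) : ℝ) ^ 2 * Tb ^ 2) := mul_le_mul_of_nonneg_left h1 (by positivity)

/-- **the input of [C] s3 from the hypothesis of [C] s2** -/
theorem lk_freeIn {b : ℕ → ℝ} {n : ℕ → ℕ} {a : ℝ} (hS : ScaleCoef b n a) (ha : 0 < a) : FreeIn a b n := by
  intro m₁ m₂ K g ν' hg hc t Tb ht q X hX
  by_cases hm : m₁ = 0 ∨ m₂ = 0
  · constructor
    · intro _
      have h1 : ∀ k, (lawR (rect m₁ m₂) (g k) noRow).logLap (b k) (X k)
          - (lawR (rect m₁ m₂) (g k) noRow).gVar a ((rect m₁ m₂).cellTest (g k) (t k)) / 2 = 0 := by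
        intro k
        obtain ⟨e1, e2, -⟩ := lk_degenerate hm (g k) a (b k) ((rect m₁ m₂).cellTest (g k) (t k)) (X k)
        have e1' : (lawR (rect m₁ m₂) (g k) noRow).logLap (b k) (X k) = 0 := e1
        have e2' : (lawR (rect m₁ m₂) (g k) noRow).gVar a ((rect m₁ m₂).cellTest (g k) (t k)) = 0 := e2
        rw [e1', e2']
        ring
      simp only [h1]
      exact tendsto_const_nhds
    · intro hq
      exfalso
      obtain ⟨-, -, e3⟩ := lk_degenerate hm (g 0) a (b 0) ((rect m₁ m₂).cellTest (g 0) (t 0)) (X 0)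
      exact hq 0 (Finset.sum_of_isEmpty _)
  · push Not at hm
    have hm₁ : 0 < m₁ := Nat.pos_of_ne_zero hm.1
    have hm₂ : 0 < m₂ := Nat.pos_of_ne_zero hm.2
    have hR := lk_admN hm₁ hm₂ hg hc
    obtain ⟨c, hc'⟩ := hc
    have hsq := lk_sq_ct_n hg hc' t Tb ht
    -- the total of the test
    have htot : ∀ k, ∑ u ∈ (lkRc (g k)).set, lkCt (g k) (t k) u = ((∑ v, q k v : ℤ) : ℝ) := by
      intro k
      have h1 := lk_lift_total (g k) (b k) _ (X k) (hX k)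
      simp only [Pi.sub_apply, Finset.sum_sub_distrib, lk_cellTest, ptRow] at h1
      rw [lk_sum_pos (g k) (lkCt (g k) (t k))] at h1
      push_cast
      linarith
    constructor
    · intro hq0
      have hf : ∀ k v, ((rect m₁ m₂).cellTest (g k) (t k) - ptRow (q k)) v = lkCt (g k) (t k) (lkPos (g k) v) := by
        intro k v
        simp [hq0 k, ptRow, lk_cellTest]
      choose X0 hX0 hE using fun k => lk_transfer (g k) (b k) _ _ (hf k) (X k) (hX k)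
      have htot0 : ∀ k, ∑ u ∈ (lkRc (g k)).set, lkCt (g k) (t k) u = 0 := by
        intro k
        rw [htot k, hq0 k]
        simp
      refine (lk_laplace hS ha hR (fun k => lkCt (g k) (t k)) _ htot0 hsq X0 hX0).congr fun k => ?_
      have e1 : (lawR (rect m₁ m₂) (g k) noRow).logLap (b k) (X k) = (lkRc (g k)).law.logLap (b k) (X0 k) :=
        congrArg Real.log (hE k Real.exp)
      have e2 : (lawR (rect m₁ m₂) (g k) noRow).gVar a ((rect m₁ m₂).cellTest (g k) (t k))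
          = (lkRc (g k)).law.gVar a (domFn (D := (lkRc (g k)).set) (cut := ∅) (lkCt (g k) (t k))) :=
        lk_gVar hm₁ hm₂ (g k) a _ _ (lk_cellTest (g k) (t k)) (by
          simp only [lk_cellTest]
          rw [lk_sum_pos (g k) (lkCt (g k) (t k)), htot0 k])
      rw [e1, e2]
    · intro hq
      have hf : ∀ k v, ((rect m₁ m₂).cellTest (g k) (t k) - ptRow (q k)) v
          = (fun u => lkCt (g k) (t k) u - (lkQ (g k) (q k) u : ℝ)) (lkPos (g k) v) := by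
        intro k v
        simp only [Pi.sub_apply, lk_cellTest, lk_ptRow]
      choose X0 hX0 hE using fun k => lk_transfer (g k) (b k) _
        (fun u => lkCt (g k) (t k) u - (lkQ (g k) (q k) u : ℝ)) (hf k) (X k) (hX k)
      have hB : ∀ k, |((∑ v, q k v : ℤ) : ℝ)| ≤ ((m₁ * m₂ : ℕ) : ℝ) * Tb := by
        intro k
        rw [← htot k, lk_sum_ct]
        refine (Finset.abs_sum_le_sum_abs _ _).trans ?_
        refine (Finset.sum_le_sum fun κ _ => ht k κ).trans (le_of_eq ?_)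
        simp [Finset.card_univ, Fintype.card_prod]
      refine (lk_phase hS ha hR (fun k => lkCt (g k) (t k)) _ _ (fun k => ∑ v, q k v) hq hB htot hsq).congr fun k => ?_
      rw [← lk_phi_eq_chr (lkRc (g k)) (b k) _ (lkQ (g k) (q k)) (X0 k) (hX0 k)]
      exact (hE k Real.cos).symm

/-- **LINK FREE → PINS** -/
theorem lk_scen {b : ℕ → ℝ} {n : ℕ → ℕ} {a : ℝ} (hS : ScaleCoef b n a) (ha : 0 < a) : C3.Scen a b n :=
  ⟨ha, hS.1, lk_freeIn hS ha, hS⟩

end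

end Claimed.Agent.R285.Tor
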