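import Claimed.Agent.R285.Read.C2
import Claimed.Agent.R285.Read.C3Defs
import Claimed.Agent.R285.C5.Tor

/-!
# ROW 285, unit MASS, layer TOR ([E] P5.5 = `prop:gaussian-profile`, torus part): DEFINITIONS   (architect helper225)

Plan, K1 and the assembly: `R285/Read/E5.lean`.   No sorry in this file.

* shifts are functions `u : ℤ × ℤ → ℝ` (periodic where needed); a torus bond is represented by the bond of `ℤ²` starting at the representative in `[0,n)²` of its first endpoint;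
* `gradT n b u` = the statistic `∑_e ∇_e u ∇_e (2π h)` over ALL bonds of the torus, `tV b n u` its centred variance in the zero-winding periodic law, `tD n u` the periodic Dirichlet energy;
* `TReg n u` = periodic shifts with bounded discrete `C²` norm at scale `n` (closed under `±`).
-/

set_option autoImplicit false

namespace Claimed.Agent.R285.Tor

open Filter Topology C2
open scoped Classical

noncomputable section

/-- the representative in `[0,n)²` of a torus vertex -/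
def rep (n : ℕ) (v : ZMod n × ZMod n) : ℤ × ℤ := ((v.1.val : ℤ), (v.2.val : ℤ))

/-- the bond of `ℤ²` representing a torus bond -/
def repB (n : ℕ) (e : (ZMod n × ZMod n) × Bool) : Bond := (rep n e.1, e.2)

/-- the abstract system of the zero-winding periodic law -/
def sys (n : ℕ) [NeZero n] (b : ℝ) : LSys := (C5.torLaw n).sys b

/-- the flow test `∑_e w_e ∇_e (2π h)` on the torus -/
def flowT (n : ℕ) [NeZero n] (b : ℝ) (w : Bond → ℝ) : (sys n b).L →+ ℝ :=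
  flowS (sys n b) fun e => 2 * Real.pi * w (repB n e)

/-- the gradient test of a (periodic) shift -/
def gradT (n : ℕ) [NeZero n] (b : ℝ) (u : ℤ × ℤ → ℝ) : (sys n b).L →+ ℝ := flowT n b (gd u)

/-- variance of a flow test in the periodic law -/
def tVw (b : ℝ) (n : ℕ) (w : Bond → ℝ) : ℝ :=
  if hn : n = 0 then 0 else
    haveI : NeZero n := ⟨hn⟩
    (sys n b).V0 (flowT n b w)

/-- variance of the gradient test of a shift -/
def tV (b : ℝ) (n : ℕ) (u : ℤ × ℤ → ℝ) : ℝ := tVw b n (gd u)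

/-- the periodic Dirichlet energy (all `2 n²` bonds) -/
def tD (n : ℕ) (u : ℤ × ℤ → ℝ) : ℝ := ∑ v ∈ (C2.sq n).set, (gd u (v, true) ^ 2 + gd u (v, false) ^ 2)

/-- periodic shifts with bounded discrete `C²` norm at scale `n k` -/
structure TReg (n : ℕ → ℕ) (u : ℕ → ℤ × ℤ → ℝ) : Prop where
  per : ∀ k v, u k (v.1 + n k, v.2) = u k v ∧ u k (v.1, v.2 + n k) = u k v
  bd : ∃ M : ℝ, ∀ k, (∀ e : Bond, |gd (u k) e| ≤ M / n k) ∧
    ∀ (e : Bond) (d : ℤ × ℤ), (d = (1, 0) ∨ d = (0, 1)) → |gd (u k) (e.1 + d, e.2) - gd (u k) e| ≤ M / (n k : ℝ) ^ 2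

theorem gd_add (u u' : ℤ × ℤ → ℝ) (e : Bond) : gd (fun v => u v + u' v) e = gd u e + gd u' e := by
  simp only [gd]; ring

theorem gd_sub (u u' : ℤ × ℤ → ℝ) (e : Bond) : gd (fun v => u v - u' v) e = gd u e - gd u' e := by
  simp only [gd]; ring

theorem TReg.add {n : ℕ → ℕ} {u u' : ℕ → ℤ × ℤ → ℝ} (h : TReg n u) (h' : TReg n u') :
    TReg n fun k v => u k v + u' k v := by
  obtain ⟨M, hM⟩ := h.bd
  obtain ⟨M', hM'⟩ := h'.bd
  refine ⟨fun k v => ⟨by rw [(h.per k v).1, (h'.per k v).1], by rw [(h.per k v).2, (h'.per k v).2]⟩,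
    M + M', fun k => ⟨fun e => ?_, fun e d hd => ?_⟩⟩
  · rw [gd_add, add_div]
    exact (abs_add_le _ _).trans (add_le_add ((hM k).1 e) ((hM' k).1 e))
  · rw [gd_add, gd_add, add_div]
    have e1 : gd (u k) (e.1 + d, e.2) + gd (u' k) (e.1 + d, e.2) - (gd (u k) e + gd (u' k) e)
        = (gd (u k) (e.1 + d, e.2) - gd (u k) e) + (gd (u' k) (e.1 + d, e.2) - gd (u' k) e) := by ring
    rw [e1]
    exact (abs_add_le _ _).trans (add_le_add ((hM k).2 e d hd) ((hM' k).2 e d hd))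

theorem TReg.sub {n : ℕ → ℕ} {u u' : ℕ → ℤ × ℤ → ℝ} (h : TReg n u) (h' : TReg n u') :
    TReg n fun k v => u k v - u' k v := by
  obtain ⟨M, hM⟩ := h.bd
  obtain ⟨M', hM'⟩ := h'.bd
  refine ⟨fun k v => ⟨by rw [(h.per k v).1, (h'.per k v).1], by rw [(h.per k v).2, (h'.per k v).2]⟩,
    M + M', fun k => ⟨fun e => ?_, fun e d hd => ?_⟩⟩
  · rw [gd_sub, add_div]
    exact (abs_sub _ _).trans (add_le_add ((hM k).1 e) ((hM' k).1 e))
  · rw [gd_sub, gd_sub, add_div]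
    have e1 : gd (u k) (e.1 + d, e.2) - gd (u' k) (e.1 + d, e.2) - (gd (u k) e - gd (u' k) e)
        = (gd (u k) (e.1 + d, e.2) - gd (u k) e) - (gd (u' k) (e.1 + d, e.2) - gd (u' k) e) := by ring
    rw [e1]
    exact (abs_sub _ _).trans (add_le_add ((hM k).2 e d hd) ((hM' k).2 e d hd))

/-- the first nonzero eigenvalue of the periodic Laplacian -/
def lam (n : ℕ) : ℝ := 2 - 2 * Real.cos (2 * Real.pi / n)

/-- the potential of the cosine observation: `A_tor (cosShift n) = n⁻² cos(2π x₁/n)` -/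
def cosShift (n : ℕ) (v : ℤ × ℤ) : ℝ := Real.cos (2 * Real.pi * (v.1 : ℝ) / n) / ((n : ℝ) ^ 2 * lam n)

/-- `v` lies (modulo `n`) within `n/8` of the seam lines `x₁ ≡ 0` or `x₂ ≡ 0` -/
def NearSeam (n : ℕ) (v : ℤ × ℤ) : Prop :=
  8 * (v.1 % n) ≤ n ∨ 7 * (n : ℤ) ≤ 8 * (v.1 % n) ∨ 8 * (v.2 % n) ≤ n ∨ 7 * (n : ℤ) ≤ 8 * (v.2 % n)

/-- the `m × m` array of cells with pinned boundary cells (square with a zero rim) -/
def rim (m : ℕ) : CGeom m m where
  T := Finset.univ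
  cutF := ∅
  pin := Finset.univ.filter fun κ => κ.1.1 = 0 ∨ κ.1.1 + 1 = m ∨ κ.2.1 = 0 ∨ κ.2.1 + 1 = m
  nObs := 0
  box := Fin.elim0
  wgt := Fin.elim0

/-- a cell which is pinned or touches a pinned cell (8 neighbours) -/
def NearPin {m₁ m₂ : ℕ} (Γ : CGeom m₁ m₂) (κ : Fin m₁ × Fin m₂) : Prop :=
  ∃ κ' ∈ Γ.pin, κ.1.1 ≤ κ'.1.1 + 1 ∧ κ'.1.1 ≤ κ.1.1 + 1 ∧ κ.2.1 ≤ κ'.2.1 + 1 ∧ κ'.2.1 ≤ κ.2.1 + 1

/-- the gradient test `∑_e ∇_e u ∇_e (2π h)` over the bonds of a geometry, under its hard pins (no rows) -/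
def gradG {m₁ m₂ : ℕ} (Γ : CGeom m₁ m₂) (g : DGrid m₁ m₂) (b : ℝ) (u : ℤ × ℤ → ℝ) :
    ((C3.lawR Γ g C3.noRow).sys b).L →+ ℝ :=
  flowS ((C3.lawR Γ g C3.noRow).sys b) fun e =>
    2 * Real.pi * gd u (domBond (D := g.region Γ.T) (cut := Γ.cutB g) e)

/-- the Dirichlet energy over the bonds of a geometry -/
def dirG {m₁ m₂ : ℕ} (Γ : CGeom m₁ m₂) (g : DGrid m₁ m₂) (u : ℤ × ℤ → ℝ) : ℝ :=
  ∑ e : (Γ.graph g).E, gd u (domBond (D := g.region Γ.T) (cut := Γ.cutB g) e) ^ 2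

end

end Claimed.Agent.R285.Tor
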