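import Claimed.Agent.R285.Tor.Defs
import Claimed.Agent.R285.Free.Rect

/-!
# ROW 285, LINK FREE → PINS (post BP-LINK-FREEIN, architect helper193): DEFINITIONS

Goal (`Tor/Link.lean`): `C2.ScaleCoef b n a`, `0 < a`  ⟹  `C3.Scen a b n`.

`C3.FreeIn` speaks about the free law `lkLaw g = lawR (rect m₁ m₂) g noRow` on the full array of cells of a grid `g` (ANY position in `ℤ²`, no pin, `O = Fin 0`);
`Read/C2.lean` speaks about `Rc.law` (corner pinned, `O = Empty`) of rectangles at distance `O(n)` from the origin.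
So the rectangle of the grid is MOVED TO THE ORIGIN: `lkRc g = ⟨(0,0), p, q⟩`, vertex `v ↦ lkPos g v = v - lkOrg g`.  All the dependent types are hidden in the three transfer leaves
`lk_transfer` (expectations of lifted tests), `lk_gVar` (Gaussian references), `lk_sum_pos` (sums over vertices).

FILES: `LinkG` (grid: LK-G1..G5), `LinkS` (small facts: LK-T0, T0', T2, T3, T5), `LinkT` (transfer: LK-T1, T4), `LinkP` (phases: LK-P1..P3), `Link` (the glue, proved).
-/

set_option autoImplicit false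

namespace Claimed.Agent.R285.Tor

open Filter Topology C2 C3 Free
open scoped Classical

noncomputable section

variable {m₁ m₂ : ℕ}

/-- the free law on the full array of cells -/
abbrev lkLaw (g : DGrid m₁ m₂) : HLaw ((rect m₁ m₂).graph g) := lawR (rect m₁ m₂) g noRow

/-- the lower left corner of the grid -/
def lkOrg (g : DGrid m₁ m₂) : ℤ × ℤ := (g.x₁ 0, g.x₂ 0)

/-- the rectangle of the grid, moved to the origin -/
def lkRc (g : DGrid m₁ m₂) : Rc :=
  ⟨(0, 0), (g.x₁ (Fin.last m₁) - g.x₁ 0).toNat, (g.x₂ (Fin.last m₂) - g.x₂ 0).toNat⟩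

/-- the position of a vertex relative to the corner -/
def lkPos (g : DGrid m₁ m₂) (v : ((rect m₁ m₂).graph g).V) : ℤ × ℤ :=
  domPos (D := g.region (rect m₁ m₂).T) (cut := (rect m₁ m₂).cutB g) v - lkOrg g

/-- the cell test, moved to the origin, as a function on `ℤ²` -/
def lkCt (g : DGrid m₁ m₂) (t : Cell m₁ m₂ → ℝ) (u : ℤ × ℤ) : ℝ :=
  ∑ κ, t κ * (if u + lkOrg g ∈ g.cell κ then ((g.cell κ).card : ℝ)⁻¹ else 0)

/-- integer point charges, moved to the origin, as a function on `ℤ²` -/
def lkQ (g : DGrid m₁ m₂) (q : ((rect m₁ m₂).graph g).V → ℤ) (u : ℤ × ℤ) : ℤ :=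
  if h : u + lkOrg g ∈ g.region (rect m₁ m₂).T then q ⟨u + lkOrg g, h⟩ else 0

end

end Claimed.Agent.R285.Tor
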