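import Claimed.Agent.R285.Tor.LinkDefs

/-!
# ROW 285, LINK FREE → PINS (post BP-LINK-FREEIN, architect helper193): leaves LK-G1 … LK-G5 (the grid)

Definitions and plan: `Tor/LinkDefs.lean`.  Glue: `Tor/Link.lean` (proved).  RULE: statements verbatim; helper lemmas (prefix `lk_`) directly above the leaf.
-/

set_option autoImplicit false

namespace Claimed.Agent.R285.Tor

open Filter Topology C2 C3 Free
open scoped Classical

noncomputable section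

variable {m₁ m₂ : ℕ}

/-! ## G : the grid -/

theorem lk_find {m : ℕ} (x : Fin (m + 1) → ℤ) (a : ℤ) (h0 : x 0 ≤ a) :
    ∀ (k : ℕ) (hk : k < m + 1), a < x ⟨k, hk⟩ → ∃ i : Fin m, x i.castSucc ≤ a ∧ a < x i.succ := by
  intro k
  induction k with
  | zero =>
    intro hk h
    have e : (⟨0, hk⟩ : Fin (m + 1)) = 0 := rfl
    rw [e] at h
    omega
  | succ k ih =>
    intro hk h
    by_cases h1 : a < x ⟨k, by omega⟩
    · exact ih _ h1
    · exact ⟨⟨k, by omega⟩, not_lt.1 h1, h⟩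

theorem lk_line {m : ℕ} (x : Fin (m + 1) → ℤ) (hx : StrictMono x) (a : ℤ) :
    (∃ i : Fin m, x i.castSucc ≤ a ∧ a < x i.succ) ↔ (x 0 ≤ a ∧ a < x (Fin.last m)) := by
  constructor
  · rintro ⟨i, h1, h2⟩
    exact ⟨(hx.monotone (Fin.zero_le _)).trans h1, h2.trans_le (hx.monotone (Fin.le_last _))⟩
  · rintro ⟨h1, h2⟩
    exact lk_find x a h1 m (Nat.lt_succ_self m) h2

theorem lk_mem_region0 (g : DGrid m₁ m₂) (v : ℤ × ℤ) :
    v ∈ g.region Finset.univ ↔ (g.x₁ 0 ≤ v.1 ∧ v.1 < g.x₁ (Fin.last m₁)) ∧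
      (g.x₂ 0 ≤ v.2 ∧ v.2 < g.x₂ (Fin.last m₂)) := by
  rw [← lk_line g.x₁ g.mono₁, ← lk_line g.x₂ g.mono₂]
  simp only [DGrid.region, Finset.mem_biUnion, Finset.mem_univ, true_and, DGrid.cell,
    Finset.mem_product, Finset.mem_Ico, Prod.exists]
  constructor
  · rintro ⟨i, j, h1, h2⟩
    exact ⟨⟨i, h1⟩, ⟨j, h2⟩⟩
  · rintro ⟨⟨i, h1⟩, ⟨j, h2⟩⟩
    exact ⟨i, j, h1, h2⟩

/-- [LK-G1] the union of all cells is the rectangle.
Route: for a strictly monotone `x : Fin (m+1) → ℤ` and `x 0 ≤ a < x (last)` there is `i : Fin m` with `x i.castSucc ≤ a < x i.succ` (induction on `m`, or `Nat.find` / `Finset.max'` of `{i | x i ≤ a}`); conversely `x 0 ≤ x i.castSucc`, `x i.succ ≤ x last`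
(`g.mono₁.monotone`, `Fin.zero_le`, `Fin.le_last`).  `DGrid.region`, `Finset.mem_biUnion`, `DGrid.cell`, `Rc.set`, `Finset.mem_product`, `Finset.mem_Ico`, `Int.toNat_of_nonneg`. -/
theorem lk_mem_region (g : DGrid m₁ m₂) (v : ℤ × ℤ) :
    v ∈ g.region Finset.univ ↔ v - lkOrg g ∈ (lkRc g).set := by
  rw [lk_mem_region0]
  have h1 : g.x₁ 0 ≤ g.x₁ (Fin.last m₁) := g.mono₁.monotone (Fin.zero_le _)
  have h2 : g.x₂ 0 ≤ g.x₂ (Fin.last m₂) := g.mono₂.monotone (Fin.zero_le _)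
  simp only [Rc.set, lkRc, lkOrg, Finset.mem_product, Finset.mem_Ico, Prod.fst_sub, Prod.snd_sub,
    Int.toNat_of_nonneg (sub_nonneg.2 h1), Int.toNat_of_nonneg (sub_nonneg.2 h2)]
  constructor
  · rintro ⟨⟨a1, a2⟩, ⟨b1, b2⟩⟩
    exact ⟨⟨by omega, by omega⟩, ⟨by omega, by omega⟩⟩
  · rintro ⟨⟨a1, a2⟩, ⟨b1, b2⟩⟩
    exact ⟨⟨by omega, by omega⟩, ⟨by omega, by omega⟩⟩

/-- [LK-G2] sums over the vertices of the graph are sums over the rectangle at the origin.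
Route: `((rect m₁ m₂).graph g).V = {v // v ∈ g.region univ}` by `rfl`; `Finset.sum_coe_sort` (or `Finset.sum_subtype`), then `Finset.sum_bij` / `Finset.sum_nbij'` with `v ↦ v - lkOrg g`, `u ↦ u + lkOrg g` and `lk_mem_region`. -/
theorem lk_sum_pos (g : DGrid m₁ m₂) (F : ℤ × ℤ → ℝ) :
    ∑ v : ((rect m₁ m₂).graph g).V, F (lkPos g v) = ∑ u ∈ (lkRc g).set, F u := by
  refine Finset.sum_bij (fun v _ => lkPos g v) ?_ ?_ ?_ ?_
  · intro v _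
    exact (lk_mem_region g _).1 v.2
  · intro v _ w _ h
    have h1 : (v.1 : ℤ × ℤ) - lkOrg g = w.1 - lkOrg g := h
    exact Subtype.ext (sub_left_injective h1)
  · intro u hu
    have h1 : u + lkOrg g ∈ g.region Finset.univ := by
      rw [lk_mem_region, add_sub_cancel_right]
      exact hu
    refine ⟨⟨u + lkOrg g, h1⟩, Finset.mem_univ _, ?_⟩
    show u + lkOrg g - lkOrg g = u
    rw [add_sub_cancel_right]
  · intro v _
    rfl

/-- change of variables. -/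
theorem lk_sum_shift (g : DGrid m₁ m₂) (H : ℤ × ℤ → ℝ) :
    ∑ u ∈ (lkRc g).set, H (u + lkOrg g) = ∑ v ∈ g.region Finset.univ, H v := by
  refine Finset.sum_bij (fun u _ => u + lkOrg g) ?_ ?_ ?_ ?_
  · intro u hu
    rw [lk_mem_region, add_sub_cancel_right]
    exact hu
  · intro u _ w _ h
    exact add_right_cancel h
  · intro v hv
    exact ⟨v - lkOrg g, (lk_mem_region g v).1 hv, sub_add_cancel _ _⟩
  · intro u _
    rfl

theorem lk_cell_sub (g : DGrid m₁ m₂) (κ : Cell m₁ m₂) : g.cell κ ⊆ g.region Finset.univ :=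
  Finset.subset_biUnion_of_mem g.cell (Finset.mem_univ κ)

/-- sums of indicator functions of a cell. -/
theorem lk_sum_ite (g : DGrid m₁ m₂) (κ : Cell m₁ m₂) (a : ℝ) :
    ∑ u ∈ (lkRc g).set, (if u + lkOrg g ∈ g.cell κ then a else 0) = ((g.cell κ).card : ℝ) * a := by
  rw [lk_sum_shift g (fun v => if v ∈ g.cell κ then a else 0), Finset.sum_ite_mem,
    Finset.inter_eq_right.2 (lk_cell_sub g κ), Finset.sum_const, nsmul_eq_mul]

theorem lk_card_cell (g : DGrid m₁ m₂) (κ : Cell m₁ m₂) :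
    ((g.cell κ).card : ℝ) = ((g.x₁ κ.1.succ - g.x₁ κ.1.castSucc : ℤ) : ℝ) *
      ((g.x₂ κ.2.succ - g.x₂ κ.2.castSucc : ℤ) : ℝ) := by
  have h1 : g.x₁ κ.1.castSucc < g.x₁ κ.1.succ := g.mono₁ Fin.castSucc_lt_succ
  have h2 : g.x₂ κ.2.castSucc < g.x₂ κ.2.succ := g.mono₂ Fin.castSucc_lt_succ
  rw [DGrid.cell, Finset.card_product, Int.card_Ico, Int.card_Ico]
  push_cast
  have e1 : (((g.x₁ κ.1.succ - g.x₁ κ.1.castSucc).toNat : ℤ) : ℝ) =
      ((g.x₁ κ.1.succ - g.x₁ κ.1.castSucc : ℤ) : ℝ) := by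
    rw [Int.toNat_of_nonneg (by omega)]
  have e2 : (((g.x₂ κ.2.succ - g.x₂ κ.2.castSucc).toNat : ℤ) : ℝ) =
      ((g.x₂ κ.2.succ - g.x₂ κ.2.castSucc : ℤ) : ℝ) := by
    rw [Int.toNat_of_nonneg (by omega)]
  push_cast at e1 e2
  rw [e1, e2]

theorem lk_card_pos (g : DGrid m₁ m₂) (κ : Cell m₁ m₂) : (0 : ℝ) < ((g.cell κ).card : ℝ) := by
  have h1 : g.x₁ κ.1.castSucc < g.x₁ κ.1.succ := g.mono₁ Fin.castSucc_lt_succ
  have h2 : g.x₂ κ.2.castSucc < g.x₂ κ.2.succ := g.mono₂ Fin.castSucc_lt_succ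
  rw [lk_card_cell]
  refine mul_pos ?_ ?_
  · exact_mod_cast (sub_pos.2 h1)
  · exact_mod_cast (sub_pos.2 h2)

/-- [LK-G3] total of a cell test.
Route: `Finset.sum_comm`, `Finset.mul_sum`; for fixed `κ`: `∑ u ∈ set, ite (u + org ∈ cell κ) c⁻¹ 0 = card (cell κ) * c⁻¹ = 1`: `Finset.sum_ite`, `Finset.sum_const`, the filter is in bijection with `g.cell κ` (`cell κ ⊆ region univ`, `lk_mem_region`);
`card (cell κ) ≠ 0` (the corner `(x₁ κ.1.castSucc, x₂ κ.2.castSucc)` is in the cell by strict monotonicity). -/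
theorem lk_sum_ct (g : DGrid m₁ m₂) (t : Cell m₁ m₂ → ℝ) : ∑ u ∈ (lkRc g).set, lkCt g t u = ∑ κ, t κ := by
  unfold lkCt
  rw [Finset.sum_comm]
  refine Finset.sum_congr rfl fun κ _ => ?_
  rw [← Finset.mul_sum, lk_sum_ite, mul_inv_cancel₀ (lk_card_pos g κ).ne', mul_one]

/-- [LK-G4] scaled `ℓ²` norm of a cell test (crude constant: no disjointness of the cells needed).
Route: `sq_sum_le_card_mul_sum_sq`: `(∑ κ, a κ)² ≤ (m₁ m₂) ∑ κ, a κ²`; sum over `u`, exchange; `∑ u, (t κ * ite ..)² = t κ² / card (cell κ)` as in `lk_sum_ct`;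
`card (cell κ) = side₁ * side₂ ≥ ν²` (`Finset.card_product`, `Int.card_Ico`).  The case `ν = 0` is trivial. -/
theorem lk_sq_ct (g : DGrid m₁ m₂) (t : Cell m₁ m₂ → ℝ) (Tb : ℝ) (ht : ∀ κ, |t κ| ≤ Tb) (ν : ℕ) (hν : g.SideGe ν) :
    (ν : ℝ) ^ 2 * ∑ u ∈ (lkRc g).set, lkCt g t u ^ 2 ≤ ((m₁ * m₂ : ℕ) : ℝ) ^ 2 * Tb ^ 2 := by
  have hcard : ((Finset.univ : Finset (Cell m₁ m₂)).card : ℝ) = ((m₁ * m₂ : ℕ) : ℝ) := by
    simp
  have h1 : ∀ u, lkCt g t u ^ 2 ≤ ((m₁ * m₂ : ℕ) : ℝ) * ∑ κ, (t κ *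
      (if u + lkOrg g ∈ g.cell κ then ((g.cell κ).card : ℝ)⁻¹ else 0)) ^ 2 := by
    intro u
    have := sq_sum_le_card_mul_sum_sq (s := (Finset.univ : Finset (Cell m₁ m₂)))
      (f := fun κ => t κ * (if u + lkOrg g ∈ g.cell κ then ((g.cell κ).card : ℝ)⁻¹ else 0))
    rw [hcard] at this
    exact this
  have h2 : ∑ u ∈ (lkRc g).set, ∑ κ, (t κ *
      (if u + lkOrg g ∈ g.cell κ then ((g.cell κ).card : ℝ)⁻¹ else 0)) ^ 2 =
      ∑ κ, t κ ^ 2 * ((g.cell κ).card : ℝ)⁻¹ := by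
    rw [Finset.sum_comm]
    refine Finset.sum_congr rfl fun κ _ => ?_
    have e : ∀ u, (t κ * (if u + lkOrg g ∈ g.cell κ then ((g.cell κ).card : ℝ)⁻¹ else 0)) ^ 2 =
        t κ ^ 2 * (if u + lkOrg g ∈ g.cell κ then (((g.cell κ).card : ℝ)⁻¹) ^ 2 else 0) := by
      intro u
      split_ifs <;> ring
    simp only [e]
    rw [← Finset.mul_sum, lk_sum_ite]
    have := (lk_card_pos g κ).ne'
    field_simp
  have h3 : ∀ κ, (ν : ℝ) ^ 2 * (t κ ^ 2 * ((g.cell κ).card : ℝ)⁻¹) ≤ Tb ^ 2 := by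
    intro κ
    have a1 : (ν : ℝ) ≤ ((g.x₁ κ.1.succ - g.x₁ κ.1.castSucc : ℤ) : ℝ) := by
      exact_mod_cast hν.1 κ.1
    have a2 : (ν : ℝ) ≤ ((g.x₂ κ.2.succ - g.x₂ κ.2.castSucc : ℤ) : ℝ) := by
      exact_mod_cast hν.2 κ.2
    have a3 : (ν : ℝ) ^ 2 ≤ ((g.cell κ).card : ℝ) := by
      rw [lk_card_cell, pow_two]
      exact mul_le_mul a1 a2 (Nat.cast_nonneg _) ((Nat.cast_nonneg _).trans a1)
    have a4 : t κ ^ 2 ≤ Tb ^ 2 := by
      rw [← sq_abs]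
      exact pow_le_pow_left₀ (abs_nonneg _) (ht κ) 2
    have a5 := lk_card_pos g κ
    have a6 : (ν : ℝ) ^ 2 * ((g.cell κ).card : ℝ)⁻¹ ≤ 1 := by
      rw [← div_eq_mul_inv, div_le_one a5]
      exact a3
    calc (ν : ℝ) ^ 2 * (t κ ^ 2 * ((g.cell κ).card : ℝ)⁻¹)
        = t κ ^ 2 * ((ν : ℝ) ^ 2 * ((g.cell κ).card : ℝ)⁻¹) := by ring
      _ ≤ t κ ^ 2 * 1 := mul_le_mul_of_nonneg_left a6 (sq_nonneg _)
      _ ≤ Tb ^ 2 := by rw [mul_one]; exact a4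
  calc (ν : ℝ) ^ 2 * ∑ u ∈ (lkRc g).set, lkCt g t u ^ 2
      ≤ (ν : ℝ) ^ 2 * ∑ u ∈ (lkRc g).set, ((m₁ * m₂ : ℕ) : ℝ) * ∑ κ, (t κ *
        (if u + lkOrg g ∈ g.cell κ then ((g.cell κ).card : ℝ)⁻¹ else 0)) ^ 2 :=
        mul_le_mul_of_nonneg_left (Finset.sum_le_sum fun u _ => h1 u) (sq_nonneg _)
    _ = ((m₁ * m₂ : ℕ) : ℝ) * ∑ κ, (ν : ℝ) ^ 2 * (t κ ^ 2 * ((g.cell κ).card : ℝ)⁻¹) := by
        rw [← Finset.mul_sum, h2, ← Finset.mul_sum]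
        ring
    _ ≤ ((m₁ * m₂ : ℕ) : ℝ) * ∑ _κ : Cell m₁ m₂, Tb ^ 2 :=
        mul_le_mul_of_nonneg_left (Finset.sum_le_sum fun κ _ => h3 κ) (Nat.cast_nonneg _)
    _ = ((m₁ * m₂ : ℕ) : ℝ) ^ 2 * Tb ^ 2 := by
        rw [Finset.sum_const, nsmul_eq_mul, hcard]
        ring

theorem lk_tele {m : ℕ} (x : Fin (m + 1) → ℤ) (lo hi : ℤ)
    (h : ∀ i : Fin m, lo ≤ x i.succ - x i.castSucc ∧ x i.succ - x i.castSucc ≤ hi) :
    ∀ (k : ℕ) (hk : k < m + 1), (k : ℤ) * lo ≤ x ⟨k, hk⟩ - x 0 ∧ x ⟨k, hk⟩ - x 0 ≤ (k : ℤ) * hi := by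
  intro k
  induction k with
  | zero =>
    intro hk
    have e : (⟨0, hk⟩ : Fin (m + 1)) = 0 := rfl
    rw [e]
    simp
  | succ k ih =>
    intro hk
    have h1 := ih (by omega)
    have h2 := h ⟨k, by omega⟩
    have e1 : (⟨k, by omega⟩ : Fin m).succ = ⟨k + 1, hk⟩ := rfl
    have e2 : (⟨k, by omega⟩ : Fin m).castSucc = ⟨k, by omega⟩ := rfl
    rw [e1, e2] at h2
    push_cast
    constructor
    · linarith [h1.1, h2.1]
    · linarith [h1.2, h2.2]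

theorem lk_side {m : ℕ} (x : Fin (m + 1) → ℤ) (lo hi : ℕ)
    (h1 : ∀ i : Fin m, (lo : ℤ) ≤ x i.succ - x i.castSucc)
    (h2 : ∀ i : Fin m, x i.succ - x i.castSucc ≤ (hi : ℤ)) :
    m * lo ≤ (x (Fin.last m) - x 0).toNat ∧ (x (Fin.last m) - x 0).toNat ≤ m * hi := by
  have h := lk_tele x lo hi (fun i => ⟨h1 i, h2 i⟩) m (Nat.lt_succ_self m)
  have e : (⟨m, Nat.lt_succ_self m⟩ : Fin (m + 1)) = Fin.last m := rfl
  rw [e] at h
  have h0 : (0 : ℤ) ≤ x (Fin.last m) - x 0 := le_trans (by positivity) h.1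
  constructor
  · have : ((m * lo : ℕ) : ℤ) ≤ ((x (Fin.last m) - x 0).toNat : ℤ) := by
      rw [Int.toNat_of_nonneg h0]
      push_cast
      exact h.1
    exact_mod_cast this
  · have : ((x (Fin.last m) - x 0).toNat : ℤ) ≤ ((m * hi : ℕ) : ℤ) := by
      rw [Int.toNat_of_nonneg h0]
      push_cast
      exact h.2
    exact_mod_cast this

/-- [LK-G5] the rectangles of an admissible sequence of grids at a comparable scale are nondegenerate at scale `n`.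
Route: `x₁ last - x₁ 0 = ∑ i, (x₁ i.succ - x₁ i.castSucc)` (`Fin.sum_univ_succ`-telescoping, or induction: `x (i) - x 0 ∈ [i ν', i K ν']`), so `m₁ ν' ≤ p ≤ m₁ K ν'`; `Comp n ν'` gives `c` with `n ≤ c ν'`, `ν' ≤ c n`.
Constants: `K' = (m₁ + m₂) K c`, lower constant `1 / (c + 1)`. -/
theorem lk_admN {K : ℕ} {g : ℕ → DGrid m₁ m₂} {ν' n : ℕ → ℕ} (hm₁ : 0 < m₁) (hm₂ : 0 < m₂) (hg : Admissible K g ν')
    (hc : Comp n ν') : AdmN n fun k => lkRc (g k) := by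
  obtain ⟨c, hc⟩ := hc
  have hp : ∀ k, m₁ * ν' k ≤ (lkRc (g k)).p ∧ (lkRc (g k)).p ≤ m₁ * (K * ν' k) := fun k =>
    lk_side (g k).x₁ _ _ (hg.2 k).1.1 (hg.2 k).2.1
  have hq : ∀ k, m₂ * ν' k ≤ (lkRc (g k)).q ∧ (lkRc (g k)).q ≤ m₂ * (K * ν' k) := fun k =>
    lk_side (g k).x₂ _ _ (hg.2 k).1.2 (hg.2 k).2.2
  refine ⟨⟨(((m₁ + m₂) * K * c : ℕ) : ℝ), fun k => ?_⟩, 1 / ((c : ℝ) + 1), by positivity, fun k => ?_⟩
  · have h0 : (0 : ℝ) ≤ (((m₁ + m₂) * K * c : ℕ) : ℝ) * n k := by positivity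
    have hν : ν' k ≤ c * n k := (hc k).2
    refine ⟨?_, ?_, ?_, ?_⟩
    · simpa [lkRc] using h0
    · simpa [lkRc] using h0
    · have h1 : (lkRc (g k)).p ≤ (m₁ + m₂) * K * c * n k := by
        calc (lkRc (g k)).p ≤ m₁ * (K * ν' k) := (hp k).2
          _ ≤ (m₁ + m₂) * (K * (c * n k)) :=
            Nat.mul_le_mul (Nat.le_add_right _ _) (Nat.mul_le_mul_left _ hν)
          _ = (m₁ + m₂) * K * c * n k := by ring
      exact_mod_cast h1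
    · have h1 : (lkRc (g k)).q ≤ (m₁ + m₂) * K * c * n k := by
        calc (lkRc (g k)).q ≤ m₂ * (K * ν' k) := (hq k).2
          _ ≤ (m₁ + m₂) * (K * (c * n k)) :=
            Nat.mul_le_mul (Nat.le_add_left _ _) (Nat.mul_le_mul_left _ hν)
          _ = (m₁ + m₂) * K * c * n k := by ring
      exact_mod_cast h1
  · have hn : n k ≤ c * ν' k := (hc k).1
    have key : ∀ (m P : ℕ), 0 < m → m * ν' k ≤ P → 1 / ((c : ℝ) + 1) * n k ≤ P := by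
      intro m P hm hP
      have h1 : ν' k ≤ P := le_trans (Nat.le_mul_of_pos_left _ hm) hP
      have h2 : n k ≤ c * P := hn.trans (Nat.mul_le_mul_left _ h1)
      have h3 : (n k : ℝ) ≤ (c : ℝ) * P := by exact_mod_cast h2
      have h4 : (0 : ℝ) ≤ P := Nat.cast_nonneg _
      rw [div_mul_eq_mul_div, one_mul, div_le_iff₀ (by positivity)]
      nlinarith
    exact ⟨key m₁ _ hm₁ (hp k).1, key m₂ _ hm₂ (hq k).1⟩

end

end Claimed.Agent.R285.Tor
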