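import Claimed.Agent.R285.Tor.Defs
import Claimed.Agent.R285.Tor.Link
import Claimed.Agent.R285.Pins.CoreExit
import Claimed.Agent.R285.Pins.CoreTop

/-!
# ROW 285, unit MASS, layer TOR: the two statements REQUESTED from the lower units (architect helper225)

| contract             | paper item                                            | producer                                     |
|----------------------|-------------------------------------------------------|----------------------------------------------|
| `scen_of_scaleCoef`  | [E] P5.5, first paragraph (L5.2 + L5.3 feed L5.4)     | LINK FREE → PINS (post BP-LINK-FREEIN)       |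
| `pin_shift_lower`    | [E] L5.4, FIRST HALF (l.505-975) = core of [C] T3.1   | PINS (chief helper235; post BP-PINS-T31)     |

`pin_shift_lower` is the statement that the exploration argument proves DIRECTLY (shifts vanishing near the pins keep the free variance under hard pins).
The second half of [E] L5.4 (grounded approximation (5.35), arbitrary densities, `G_p`) is NOT consumed by [E]: the torus needs only shifts, and [E] P6.3 no longer uses pins (see `Read/E5.lean`).
-/

set_option autoImplicit false

namespace Claimed.Agent.R285.Tor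

open Filter Topology C2
open scoped Classical

noncomputable section

/-- **LINK FREE → PINS**: the hypothesis of `Read/C2.lean` implies the hypothesis of `Read/C3.lean`.
PLAN.  `b_cpt`: part of `ScaleCoef`.  `FreeIn`: let `g` be admissible at `ν' ≍ n`; `lawR (rect m₁ m₂) g noRow` and `Rc.law` of the rectangle `R = region univ` have the same image lattice (all gradients): `Free.SIso`.
(1) `q = 0`: a liftable `cellTest t` has total `0`; `n² ∑ f² ≤ C(K, m, Tb)`; `C2.reg_smear` gives a regular potential, `C2.free_laplace` + `C2.gVar_grad` give the limit.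
(2) total charge `l_k = ∑ q = ∑ t ≠ 0`: an integer with `|l_k| ≤ m₁ m₂ Tb`, so finitely many values: split the sequence; `cellTest t - l · unif` has total `0` and is the divergence of a flow of bounded cost (`reg_smear`, `reg_bdd`);
integer point charges do not change the cosine; `C2.uniform_phase`. -/
theorem scen_of_scaleCoef {b : ℕ → ℝ} {n : ℕ → ℕ} {a : ℝ} (hS : ScaleCoef b n a) (ha : 0 < a) : C3.Scen a b n :=
  lk_scen hS ha

/-- **[E] L5.4, first half** (only the instance `Γ = rim 16` is used): a shift with bounded discrete `C²` norm which vanishes on the pinned cells and on the cells touching them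
keeps, under the hard pins, at least the variance `a 𝓔(u)`.   (The opposite inequality is `lsys_var_mono` + `C2.free_var`.) -/
theorem pin_shift_lower {a : ℝ} {b : ℕ → ℝ} {ν : ℕ → ℕ} (hS : C3.Scen a b ν) {m₁ m₂ : ℕ} (Γ : CGeom m₁ m₂) (hΓ : Γ.NoDiag)
    (hT : Γ.T = Finset.univ) (hcut : Γ.cutF = ∅) (K : ℕ) (g : ℕ → DGrid m₁ m₂) (hg : Admissible K g ν)
    (u : ℕ → ℤ × ℤ → ℝ) (M : ℝ) (h1 : ∀ k (e : Bond), |gd (u k) e| ≤ M / ν k)
    (h2 : ∀ k (e : Bond) (d : ℤ × ℤ), (d = (1, 0) ∨ d = (0, 1)) → |gd (u k) (e.1 + d, e.2) - gd (u k) e| ≤ M / (ν k : ℝ) ^ 2)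
    (hvan : ∀ k κ, NearPin Γ κ → ∀ v ∈ (g k).cell κ, u k v = 0) (ε : ℝ) (hε : 0 < ε) :
    ∀ᶠ k in atTop, a * dirG Γ (g k) (u k) - ε ≤ ((C3.lawR Γ (g k) C3.noRow).sys (b k)).V0 (gradG Γ (g k) (b k) (u k)) :=
  Pins.pn_ce_tor hS (Pins.pn_core_low hS) Γ hT hcut K g hg u M h1 h2 hvan ε hε

end

end Claimed.Agent.R285.Tor
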