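import Claimed.Agent.R285.Tor.Up
import Claimed.Agent.R285.Tor.Need

/-!
# ROW 285, unit MASS, layer TOR, PACKAGE FILE 2, leaf L-TOR-LOW: the lower bound for shifts supported in one chart   (architect helper225)

[E] P5.5, proof, second paragraph ("add primary zero pins on a collar ... the collar separates the interior law from the torus exterior").
EXACT FORM: the planar square `[0,n]²` (`n+1` sites per side) with pinned boundary cells has MORE precision than the torus of side `n`: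
the torus bond starting at `v` goes to the planar bond starting at `(v - o) mod n`; the two pinned columns `x = 0` and `x = n` (rows `y = 0`, `y = n`) are both the seam of the torus.
-/

set_option autoImplicit false

namespace Claimed.Agent.R285.Tor

open Filter Topology C2
open scoped Classical

noncomputable section

/-- the grid lines: `x_i = i q` for `i ≤ 8`, `x_i = n + 1 - (16 - i) q` for `i > 8`, `q = ⌊n/16⌋` -/
def gx (n : ℕ) (i : Fin (16 + 1)) : ℤ :=
  if i.1 ≤ 8 then (i.1 : ℤ) * ((n / 16 : ℕ) : ℤ) else (n : ℤ) + 1 - (16 - (i.1 : ℤ)) * ((n / 16 : ℕ) : ℤ)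

theorem gx_strictMono (n : ℕ) (h : 16 ≤ n) : StrictMono (gx n) := by
  intro i j hij
  have hij' : (i.1 : ℤ) + 1 ≤ (j.1 : ℤ) := by exact_mod_cast (show i.1 < j.1 from hij)
  have hj : (j.1 : ℤ) ≤ 16 := by exact_mod_cast Nat.lt_succ_iff.1 j.2
  have hi0 : (0 : ℤ) ≤ (i.1 : ℤ) := Int.natCast_nonneg _
  obtain ⟨q, hq⟩ : ∃ q : ℤ, q = ((n / 16 : ℕ) : ℤ) := ⟨_, rfl⟩
  have hq1 : 1 ≤ q := by rw [hq]; exact_mod_cast (Nat.le_div_iff_mul_le (by norm_num)).2 (by omega)
  have hq2 : 16 * q ≤ n := by rw [hq]; exact_mod_cast Nat.mul_div_le n 16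
  simp only [gx, ← hq]
  split_ifs with h1 h2 h2
  · nlinarith
  · nlinarith [mul_nonneg (sub_nonneg.2 hij') (by linarith : (0 : ℤ) ≤ q)]
  · exfalso
    have : (j.1 : ℤ) ≤ 8 := by exact_mod_cast h2
    have : ¬ ((i.1 : ℤ) ≤ 8) := by exact_mod_cast h1
    omega
  · nlinarith

/-- a symmetric grid of `16 × 16` cells on `[0, n]²` (needs `16 ≤ n`); for `n < 16` the uniform grid of side `1` (never used) -/
def grid16 (n : ℕ) : DGrid 16 16 :=
  if h : 16 ≤ n then ⟨gx n, gx n, gx_strictMono n h, gx_strictMono n h⟩ else DGrid.unif 16 16 1 one_pos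


theorem grid16_x₁ (n : ℕ) (hn : 16 ≤ n) : (grid16 n).x₁ = gx n := by
  simp [grid16, hn]

theorem grid16_x₂ (n : ℕ) (hn : 16 ≤ n) : (grid16 n).x₂ = gx n := by
  simp [grid16, hn]

theorem gx_zero (n : ℕ) : gx n 0 = 0 := by simp [gx]

theorem gx_last (n : ℕ) : gx n (Fin.last 16) = n + 1 := by
  simp [gx, Fin.last]

theorem mem_cell16 (n : ℕ) (hn : 16 ≤ n) (κ : Fin 16 × Fin 16) (v : ℤ × ℤ) :
    v ∈ (grid16 n).cell κ ↔ (gx n κ.1.castSucc ≤ v.1 ∧ v.1 < gx n κ.1.succ) ∧ gx n κ.2.castSucc ≤ v.2 ∧ v.2 < gx n κ.2.succ := by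
  simp only [DGrid.cell, grid16_x₁ n hn, grid16_x₂ n hn, Finset.mem_product, Finset.mem_Ico]

/-- the sites of the planar square `[0,n]²` -/
theorem mem_region16 (n : ℕ) (hn : 16 ≤ n) (v : ℤ × ℤ) :
    v ∈ (grid16 n).region (rim 16).T ↔ (0 ≤ v.1 ∧ v.1 ≤ n) ∧ 0 ≤ v.2 ∧ v.2 ≤ n := by
  have h := lk_mem_region (grid16 n) v
  have e1 : lkOrg (grid16 n) = (0, 0) := by
    simp [lkOrg, grid16_x₁ n hn, grid16_x₂ n hn, gx_zero]
  have e2 : lkRc (grid16 n) = ⟨(0, 0), n + 1, n + 1⟩ := by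
    simp only [lkRc, grid16_x₁ n hn, grid16_x₂ n hn, gx_zero, gx_last]
    congr 1
  rw [e1, e2] at h
  show v ∈ (grid16 n).region Finset.univ ↔ _
  rw [h]
  simp only [Rc.set, Finset.mem_product, Finset.mem_Ico]
  push_cast
  constructor
  · rintro ⟨⟨a, b⟩, c, d⟩
    simp at a b c d
    exact ⟨⟨a, by omega⟩, c, by omega⟩
  · rintro ⟨⟨a, b⟩, c, d⟩
    simp
    exact ⟨⟨a, by omega⟩, c, by omega⟩

/-- the sites of the four sides of `[0,n]²` are pinned -/
theorem side_mem_pin (n : ℕ) (hn : 16 ≤ n) (p : ℤ × ℤ) (hp : p ∈ (grid16 n).region (rim 16).T)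
    (hs : p.1 = 0 ∨ p.1 = n ∨ p.2 = 0 ∨ p.2 = n) : p ∈ (grid16 n).region (rim 16).pin := by
  obtain ⟨κ, -, hκ⟩ := Finset.mem_biUnion.1 hp
  refine Finset.mem_biUnion.2 ⟨κ, ?_, hκ⟩
  rw [mem_cell16 n hn] at hκ
  have hm := gx_strictMono n hn
  have key : ∀ (i : Fin 16) (t : ℤ), gx n i.castSucc ≤ t → t < gx n i.succ → (t = 0 ∨ t = n) → i.1 = 0 ∨ i.1 + 1 = 16 := by
    intro i t h1 h2 ht
    rcases ht with ht | ht
    · left
      rw [ht, ← gx_zero n, hm.le_iff_le] at h1
      have := Fin.le_def.1 h1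
      simpa using this
    · right
      have h3 : gx n (Fin.last 16) ≤ gx n i.succ := by rw [gx_last]; omega
      rw [hm.le_iff_le] at h3
      have := Fin.le_def.1 h3
      simp only [Fin.val_last, Fin.val_succ] at this
      have := i.2
      omega
  have : κ.1.1 = 0 ∨ κ.1.1 + 1 = 16 ∨ κ.2.1 = 0 ∨ κ.2.1 + 1 = 16 := by
    rcases hs with h | h | h | h
    · rcases key κ.1 p.1 hκ.1.1 hκ.1.2 (Or.inl h) with h' | h'
      · exact Or.inl h'
      · exact Or.inr (Or.inl h')
    · rcases key κ.1 p.1 hκ.1.1 hκ.1.2 (Or.inr h) with h' | h'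
      · exact Or.inl h'
      · exact Or.inr (Or.inl h')
    · rcases key κ.2 p.2 hκ.2.1 hκ.2.2 (Or.inl h) with h' | h'
      · exact Or.inr (Or.inr (Or.inl h'))
      · exact Or.inr (Or.inr (Or.inr h'))
    · rcases key κ.2 p.2 hκ.2.1 hκ.2.2 (Or.inr h) with h' | h'
      · exact Or.inr (Or.inr (Or.inl h'))
      · exact Or.inr (Or.inr (Or.inr h'))
  simpa [rim] using this

/-- periodic functions factor through the torus -/
theorem per_eq {α : Type} (n : ℕ) (u : ℤ × ℤ → α) (hper : ∀ v, u (v.1 + n, v.2) = u v ∧ u (v.1, v.2 + n) = u v)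
    (p q : ℤ × ℤ) (h : prj n p = prj n q) : u p = u q := by
  have a1 : ∀ (k : ℕ) (v : ℤ × ℤ), u (v.1 + k * n, v.2) = u v := by
    intro k
    induction k with
    | zero => intro v; simp
    | succ k ih =>
      intro v
      have := (hper (v.1 + k * n, v.2)).1
      simp only at this
      rw [← ih v, ← this]
      congr 2
      push_cast
      ring
  have a2 : ∀ (k : ℕ) (v : ℤ × ℤ), u (v.1, v.2 + k * n) = u v := by
    intro k
    induction k with
    | zero => intro v; simp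
    | succ k ih =>
      intro v
      have := (hper (v.1, v.2 + k * n)).2
      simp only at this
      rw [← ih v, ← this]
      congr 2
      push_cast
      ring
  have b1 : ∀ (k : ℤ) (v : ℤ × ℤ), u (v.1 + k * n, v.2) = u v := by
    intro k v
    rcases Int.eq_nat_or_neg k with ⟨m, rfl | rfl⟩
    · exact a1 m v
    · have := a1 m (v.1 + -(m : ℤ) * n, v.2)
      simp only at this
      rw [← this]
      congr 2
      ring
  have b2 : ∀ (k : ℤ) (v : ℤ × ℤ), u (v.1, v.2 + k * n) = u v := by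
    intro k v
    rcases Int.eq_nat_or_neg k with ⟨m, rfl | rfl⟩
    · exact a2 m v
    · have := a2 m (v.1, v.2 + -(m : ℤ) * n)
      simp only at this
      rw [← this]
      congr 2
      ring
  have h1 : ((p.1 : ℤ) : ZMod n) = (q.1 : ZMod n) := congrArg Prod.fst h
  have h2 : ((p.2 : ℤ) : ZMod n) = (q.2 : ZMod n) := congrArg Prod.snd h
  rw [ZMod.intCast_eq_intCast_iff_dvd_sub] at h1 h2
  obtain ⟨k, hk⟩ := h1
  obtain ⟨l, hl⟩ := h2
  have e : q = (p.1 + k * n, p.2 + l * n) := by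
    ext
    · simp only; linarith
    · simp only; linarith
  rw [e, b1 k (p.1, p.2 + l * n), b2 l p]

/-- the planar position of a torus vertex in the chart with origin `o` -/
def pos (n : ℕ) (o : ℤ × ℤ) (v : ZMod n × ZMod n) : ℤ × ℤ := rep n (v - prj n o)

theorem pos_mem_sq (n : ℕ) [NeZero n] (o : ℤ × ℤ) (v : ZMod n × ZMod n) : pos n o v ∈ (C2.sq n).set := rep_mem n _

theorem prj_pos (n : ℕ) [NeZero n] (o : ℤ × ℤ) (v : ZMod n × ZMod n) : prj n (pos n o v) = v - prj n o := prj_rep n _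

theorem prj_add (n : ℕ) (p q : ℤ × ℤ) : prj n (p + q) = prj n p + prj n q := by
  simp [prj]

theorem pos_bond_mem (n : ℕ) (hn : 16 ≤ n) [NeZero n] (o : ℤ × ℤ) (e : (ZMod n × ZMod n) × Bool) :
    ((pos n o e.1, e.2) : Bond) ∈ domBonds ((grid16 n).region (rim 16).T) ((rim 16).cutB (grid16 n)) := by
  have h := mem_sq_set.1 (pos_mem_sq n o e.1)
  refine Finset.mem_filter.2 ⟨Finset.mem_product.2 ⟨?_, Finset.mem_univ _⟩, ?_, ?_⟩
  · rw [mem_region16 n hn]
    exact ⟨⟨h.1.1, h.1.2.le⟩, h.2.1, h.2.2.le⟩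
  · rw [mem_region16 n hn]
    unfold Bond.snd
    split_ifs
    · exact ⟨⟨by simp only; omega, by simp only; omega⟩, h.2.1, h.2.2.le⟩
    · exact ⟨⟨h.1.1, h.1.2.le⟩, by simp only; omega, by simp only; omega⟩
  · rintro ⟨f, hf, -⟩
    simp [rim] at hf

theorem tgt_sub (n : ℕ) [NeZero n] (x : ZMod n × ZMod n) (d : Bool) (c : ZMod n × ZMod n) :
    (torus n).tgt ((x - c, d) : (ZMod n × ZMod n) × Bool)
      = @HSub.hSub (ZMod n × ZMod n) (ZMod n × ZMod n) (ZMod n × ZMod n) _ ((torus n).tgt (x, d)) c := by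
  cases d
  · refine Prod.ext ?_ ?_
    · simp [torus]
    · simp [torus]; ring
  · refine Prod.ext ?_ ?_
    · simp [torus]; ring
    · simp [torus]

/-- pinning the rim unwraps the torus -/
def pinRef (n : ℕ) (hn : 16 ≤ n) [NeZero n] (b : ℝ) (o : ℤ × ℤ) :
    LSys.Ref (sys n b) ((C3.lawR (rim 16) (grid16 n) C3.noRow).sys b) where
  iE := ⟨fun e => ⟨(pos n o e.1, e.2), pos_bond_mem n hn o e⟩, by
    intro e e' h
    have h0 : ((pos n o e.1, e.2) : Bond) = (pos n o e'.1, e'.2) := congrArg Subtype.val h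
    have h1 : ((pos n o e.1, e.2) : Bond).1 = ((pos n o e'.1, e'.2) : Bond).1 := congrArg Prod.fst h0
    have h2 : ((pos n o e.1, e.2) : Bond).2 = ((pos n o e'.1, e'.2) : Bond).2 := congrArg Prod.snd h0
    have h3 := congrArg (prj n) h1
    rw [prj_pos, prj_pos] at h3
    exact Prod.ext (sub_left_injective h3) h2⟩
  iO := ⟨fun x => x.elim, fun x => x.elim⟩
  hb := fun _ => rfl
  map_mem := by
    intro z hz
    obtain ⟨h', hh', rfl⟩ := AddSubgroup.mem_map.1 hz
    obtain ⟨H, hH⟩ : ∃ H : ℤ × ℤ → ℤ, H = fun p => if hp : p ∈ (grid16 n).region (rim 16).T then h' ⟨p, hp⟩ else 0 := ⟨_, rfl⟩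
    have H1 : ∀ (p : ℤ × ℤ) (hp : p ∈ (grid16 n).region (rim 16).T), h' ⟨p, hp⟩ = H p := by
      intro p hp
      rw [hH]
      simp only [hp, dite_true]
    have H2 : ∀ p ∈ (grid16 n).region (rim 16).T, (p.1 = 0 ∨ p.1 = n ∨ p.2 = 0 ∨ p.2 = n) → H p = 0 := by
      intro p hp hs
      rw [← H1 p hp]
      exact hh' ⟨p, hp⟩ (side_mem_pin n hn p hp hs)
    have H3 : ∀ p ∈ (grid16 n).region (rim 16).T, H (rep n (prj n p)) = H p := by
      intro p hp
      have hp' := (mem_region16 n hn p).1 hp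
      by_cases hs : p.1 = n ∨ p.2 = n
      · rw [H2 p hp (by tauto), rep_prj]
        apply H2
        · rw [mem_region16 n hn]
          have hn0 : (0 : ℤ) < n := by exact_mod_cast (by omega : 0 < n)
          exact ⟨⟨Int.emod_nonneg _ hn0.ne', (Int.emod_lt_of_pos _ hn0).le⟩, Int.emod_nonneg _ hn0.ne', (Int.emod_lt_of_pos _ hn0).le⟩
        · rcases hs with hs | hs
          · left; simp only [hs, Int.emod_self]
          · right; right; left; simp only [hs, Int.emod_self]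
      · push Not at hs
        rw [rep_prj_of_mem n (mem_sq_set.2 ⟨⟨hp'.1.1, lt_of_le_of_ne hp'.1.2 hs.1⟩, hp'.2.1, lt_of_le_of_ne hp'.2.2 hs.2⟩)]
    refine AddSubgroup.mem_map.2 ⟨fun v => H (pos n o v) - H (pos n o ((0 : ZMod n), (0 : ZMod n))), ?_, ?_⟩
    · intro v hv
      have : v = ((0 : ZMod n), (0 : ZMod n)) := hv
      simp [this]
    · refine Prod.ext (funext fun e => ?_) (funext fun x => x.elim)
      have hb := pos_bond_mem n hn o e
      show (H (pos n o ((torus n).tgt e)) - H (pos n o ((0 : ZMod n), (0 : ZMod n)))) - (H (pos n o e.1) - H (pos n o ((0 : ZMod n), (0 : ZMod n))))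
        = h' ⟨Bond.snd (pos n o e.1, e.2), domBonds_snd hb⟩ - h' ⟨pos n o e.1, domBonds_fst hb⟩
      rw [H1, H1, ← H3 _ (domBonds_snd hb), prj_snd]
      have : (torus n).tgt (prjB n (pos n o e.1, e.2)) = @HSub.hSub (ZMod n × ZMod n) (ZMod n × ZMod n) (ZMod n × ZMod n) _ ((torus n).tgt e) (prj n o) := by
        have h1 : prjB n (pos n o e.1, e.2) = (e.1 - prj n o, e.2) := by
          simp only [prjB, prj_pos]
        rw [h1]
        exact tgt_sub n e.1 e.2 _
      rw [this]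
      simp only [pos]
      ring

theorem snd_add (e : Bond) (o : ℤ × ℤ) : e.snd + o = Bond.snd (e.1 + o, e.2) := by
  rcases e with ⟨⟨x, y⟩, d⟩
  cases d
  · ext <;> simp [Bond.snd]; ring
  · ext <;> simp [Bond.snd]; ring

theorem prj_snd_congr (n : ℕ) [NeZero n] (p q : ℤ × ℤ) (d : Bool) (h : prj n p = prj n q) :
    prj n (Bond.snd (p, d)) = prj n (Bond.snd (q, d)) := by
  rw [prj_snd, prj_snd]
  simp only [prjB, h]
  rfl

/-- (F1) the gradient of the shifted function on the planar bond = the gradient on the torus bond -/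
theorem gd_pos (n : ℕ) [NeZero n] (o : ℤ × ℤ) (u : ℤ × ℤ → ℝ)
    (hper : ∀ v, u (v.1 + n, v.2) = u v ∧ u (v.1, v.2 + n) = u v) (e : (ZMod n × ZMod n) × Bool) :
    gd (fun v => u (v + o)) (pos n o e.1, e.2) = gd u (repB n e) := by
  have h0 : prj n (pos n o e.1 + o) = prj n (rep n e.1) := by
    rw [prj_add, prj_pos, prj_rep]
    abel
  simp only [gd, repB]
  rw [snd_add, per_eq n u hper _ _ h0, per_eq n u hper _ _ (prj_snd_congr n _ _ e.2 h0)]

/-- (F2) the planar bonds which do not come from the torus carry no gradient -/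
theorem gd_off (n : ℕ) (hn : 16 ≤ n) [NeZero n] (b : ℝ) (o : ℤ × ℤ) (u : ℤ × ℤ → ℝ) (hvan : ∀ v, NearSeam n (v - o) → u v = 0)
    (e : ((C3.lawR (rim 16) (grid16 n) C3.noRow).sys b).E) (he : e ∉ Set.range (pinRef n hn b o).iE) :
    gd (fun v => u (v + o)) (domBond (D := (grid16 n).region (rim 16).T) (cut := (rim 16).cutB (grid16 n)) e) = 0 := by
  obtain ⟨⟨p, d⟩, hpd⟩ := e
  have hp := (mem_region16 n hn p).1 (domBonds_fst hpd)
  have hs : p.1 = n ∨ p.2 = n := by
    by_contra hs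
    push Not at hs
    apply he
    refine ⟨(prj n p + prj n o, d), Subtype.ext ?_⟩
    show ((pos n o (prj n p + prj n o), d) : Bond) = (p, d)
    have : pos n o (prj n p + prj n o) = p := by
      simp only [pos, add_sub_cancel_right]
      exact rep_prj_of_mem n (mem_sq_set.2 ⟨⟨hp.1.1, lt_of_le_of_ne hp.1.2 hs.1⟩, hp.2.1, lt_of_le_of_ne hp.2.2 hs.2⟩)
    rw [this]
  have hn' : (16 : ℤ) ≤ n := by exact_mod_cast hn
  have m1 : ((n : ℤ) + 1) % n = 1 := by
    rw [Int.add_emod, Int.emod_self, zero_add, Int.emod_emod_of_dvd _ (dvd_refl _)]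
    exact Int.emod_eq_of_lt (by norm_num) (by omega)
  show u (Bond.snd (p, d) + o) - u (p + o) = 0
  rw [hvan (p + o), hvan (Bond.snd (p, d) + o), sub_zero]
  · rw [add_sub_cancel_right]
    unfold NearSeam Bond.snd
    rcases hs with hs | hs <;> cases d <;> simp only [hs, Int.emod_self, m1, if_true, if_false, Bool.false_eq_true] <;> omega
  · rw [add_sub_cancel_right]
    unfold NearSeam
    rcases hs with hs | hs <;> simp only [hs, Int.emod_self] <;> omega

/-- L-TOR-LOW-1.  **Pinning a cross-shaped collar unwraps the torus.**  `Ref (sys n b) ((lawR (rim 16) (grid16 n) noRow).sys b)`: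
`iE (v, d) =` the planar bond `(((v.1.val - o.1) mod n, (v.2.val - o.2) mod n), d)`; `iO : Empty ↪ Fin 0`.
`map_mem`: for `h'` on `[0,n]²` vanishing on the boundary cells put `h v = h' ((v - o) mod n)`; on a bond which crosses the seam both sides give `0 - h'(n-1, ·)`.
For a periodic `u` vanishing near the seam lines through `o`: `gradT n b u ∘ psi = gradG (rim 16) (grid16 n) b (u (· + o))` (the planar bonds which are not in the range of `iE` start on `x = n` or `y = n`, where `∇ u = 0`)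
and `tD n u = dirG (rim 16) (grid16 n) (u (· + o))`.   Then `lsys_var_mono`. -/
theorem tV_ge_pinned (b : ℝ) (hb : 0 < b) (n : ℕ) (hn : 16 ≤ n) (o : ℤ × ℤ) (u : ℤ × ℤ → ℝ)
    (hper : ∀ v, u (v.1 + n, v.2) = u v ∧ u (v.1, v.2 + n) = u v) (hvan : ∀ v, NearSeam n (v - o) → u v = 0) :
    ((C3.lawR (rim 16) (grid16 n) C3.noRow).sys b).V0 (gradG (rim 16) (grid16 n) b fun v => u (v + o)) ≤ tV b n u ∧
      dirG (rim 16) (grid16 n) (fun v => u (v + o)) = tD n u := by
  have hn0 : n ≠ 0 := by omega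
  have : NeZero n := ⟨hn0⟩
  constructor
  · have hE : IsEmpty (C3.lawR (rim 16) (grid16 n) C3.noRow).O := inferInstanceAs (IsEmpty (Fin 0))
    have hok := HLaw.ok_of_isEmpty (C3.lawR (rim 16) (grid16 n) C3.noRow) b hb
    have h1 := lsys_var_mono (pinRef n hn b o) (tor_ok n b hb) hok (gradT n b u)
    have h2 : (gradT n b u).comp (pinRef n hn b o).psi = gradG (rim 16) (grid16 n) b fun v => u (v + o) := by
      ext z
      refine Fintype.sum_of_injective (pinRef n hn b o).iE (pinRef n hn b o).iE.injective _ _ ?_ ?_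
      · intro e he
        have := gd_off n hn b o u hvan e he
        show 2 * Real.pi * gd (fun v => u (v + o)) (domBond (D := (grid16 n).region (rim 16).T) (cut := (rim 16).cutB (grid16 n)) e) * _ = 0
        rw [this]
        simp
      · intro e
        have := gd_pos n o u hper e
        show 2 * Real.pi * gd u (repB n e) * _ = 2 * Real.pi * gd (fun v => u (v + o)) (pos n o e.1, e.2) * _
        rw [this]
        rfl
    rw [h2] at h1
    refine h1.trans (le_of_eq ?_)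
    simp only [tV, tVw, hn0, dite_false]
    rfl
  · have h3 : ∑ e : (ZMod n × ZMod n) × Bool, gd u (repB n e) ^ 2 = dirG (rim 16) (grid16 n) (fun v => u (v + o)) := by
      refine Fintype.sum_of_injective (pinRef n hn b o).iE (pinRef n hn b o).iE.injective _ _ ?_ ?_
      · intro e he
        rw [gd_off n hn b o u hvan e he]
        simp
      · intro e
        have := gd_pos n o u hper e
        show gd u (repB n e) ^ 2 = gd (fun v => u (v + o)) (pos n o e.1, e.2) ^ 2
        rw [this]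
    rw [← h3, sum_repB n fun e => gd u e ^ 2]
    rfl

/-- one coordinate: a point of one of the cells `0, 1, 14, 15` is near the seam -/
theorem gx_near (n : ℕ) (hn : 16 ≤ n) (i : Fin 16) (hi : i.1 ≤ 1 ∨ 14 ≤ i.1) (t : ℤ) (h1 : gx n i.castSucc ≤ t) (h2 : t < gx n i.succ) :
    8 * (t % n) ≤ n ∨ 7 * (n : ℤ) ≤ 8 * (t % n) := by
  obtain ⟨q, hq⟩ : ∃ q : ℤ, q = ((n / 16 : ℕ) : ℤ) := ⟨_, rfl⟩
  have hq1 : 1 ≤ q := by rw [hq]; exact_mod_cast (Nat.le_div_iff_mul_le (by norm_num)).2 (by omega)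
  have hq2 : 16 * q ≤ n := by rw [hq]; exact_mod_cast Nat.mul_div_le n 16
  have hmono := (gx_strictMono n hn).monotone
  have h0 : 0 ≤ t := by
    have := hmono (Fin.zero_le i.castSucc)
    rw [gx_zero] at this
    linarith
  have hl : t ≤ n := by
    have := hmono (Fin.le_last i.succ)
    rw [gx_last] at this
    linarith
  rcases hi with hi | hi
  · left
    have h3 : gx n i.succ ≤ gx n ⟨2, by norm_num⟩ := hmono (by
      rw [Fin.le_def]
      simp only [Fin.val_succ]
      omega)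
    have h4 : gx n ⟨2, by norm_num⟩ = 2 * q := by
      simp [gx, hq]
    have h5 : t < n := by linarith
    rw [Int.emod_eq_of_lt h0 h5]
    linarith
  · have h3 : gx n (14 : Fin 17) ≤ gx n i.castSucc := hmono (by
      rw [Fin.le_def]
      simp only [Fin.val_castSucc]
      have : ((14 : Fin 17) : ℕ) = 14 := rfl
      omega)
    have h4 : gx n (14 : Fin 17) = n + 1 - 2 * q := by
      have : ((14 : Fin 17) : ℕ) = 14 := rfl
      simp only [gx, this, hq]
      norm_num
    rcases hl.eq_or_lt with h5 | h5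
    · left
      rw [h5, Int.emod_self]
      positivity
    · right
      rw [Int.emod_eq_of_lt h0 h5]
      linarith

/-- L-TOR-LOW-2.  The cells `0, 1, 14, 15` of `grid16 n` lie in the zone `NearSeam`: sites `< x₂ = 2 ⌊n/16⌋` or `≥ x₁₄ = n + 1 - 2 ⌊n/16⌋` (the site `n` is `≡ 0`). -/
theorem nearPin_nearSeam (n : ℕ) (hn : 16 ≤ n) (κ : Fin 16 × Fin 16) (hκ : NearPin (rim 16) κ) (v : ℤ × ℤ) (hv : v ∈ (grid16 n).cell κ) :
    NearSeam n v := by
  obtain ⟨κ', hκ', a1, a2, a3, a4⟩ := hκ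
  rw [mem_cell16 n hn] at hv
  have hp : κ'.1.1 = 0 ∨ κ'.1.1 + 1 = 16 ∨ κ'.2.1 = 0 ∨ κ'.2.1 + 1 = 16 := by
    simpa [rim] using hκ'
  unfold NearSeam
  have c1 : (κ.1.1 ≤ 1 ∨ 14 ≤ κ.1.1) ∨ (κ.2.1 ≤ 1 ∨ 14 ≤ κ.2.1) := by omega
  rcases c1 with c | c
  · rcases gx_near n hn κ.1 c v.1 hv.1.1 hv.1.2 with h | h
    · exact Or.inl h
    · exact Or.inr (Or.inl h)
  · rcases gx_near n hn κ.2 c v.2 hv.2.1 hv.2.2 with h | h
    · exact Or.inr (Or.inr (Or.inl h))
    · exact Or.inr (Or.inr (Or.inr h))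

theorem rim_noDiag : (rim 16).NoDiag := by
  refine ⟨?_, ?_⟩
  · intro κ κ' _ _ h
    simp [rim] at h
  · intro i j i' j' _ _
    exact ⟨fun _ _ _ => Or.inl (by simp [rim]), fun _ _ _ => Or.inl (by simp [rim])⟩

/-- the sides of `grid16 n` -/
theorem gx_side (n : ℕ) (hn : 16 ≤ n) (i : Fin 16) :
    ((n / 16 : ℕ) : ℤ) ≤ gx n i.succ - gx n i.castSucc ∧ gx n i.succ - gx n i.castSucc ≤ ((17 * (n / 16) : ℕ) : ℤ) := by
  obtain ⟨q, hq⟩ : ∃ q : ℤ, q = ((n / 16 : ℕ) : ℤ) := ⟨_, rfl⟩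
  have hq1 : 1 ≤ q := by rw [hq]; exact_mod_cast (Nat.le_div_iff_mul_le (by norm_num)).2 (by omega)
  have hq2 : 16 * q ≤ n := by rw [hq]; exact_mod_cast Nat.mul_div_le n 16
  have hq3 : (n : ℤ) < 16 * q + 16 := by
    rw [hq]
    have h2 : n < 16 * (n / 16) + 16 := by omega
    exact_mod_cast h2
  have e17 : ((17 * (n / 16) : ℕ) : ℤ) = 17 * q := by rw [hq, Nat.cast_mul]; rfl
  rw [e17]
  simp only [gx, ← hq, Fin.val_succ, Fin.val_castSucc]
  have hi : (i.1 : ℤ) < 16 := by exact_mod_cast i.2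
  split_ifs with h1 h2 h2
  · push_cast
    constructor <;> nlinarith
  · omega
  · have : i.1 = 8 := by omega
    rw [this]
    push_cast
    constructor <;> nlinarith
  · push_cast
    constructor <;> nlinarith

theorem grid16_adm (n : ℕ → ℕ) (hn : Tendsto n atTop atTop) :
    Admissible 17 (fun k => grid16 (n k)) fun k => max 1 (n k / 16) := by
  refine ⟨?_, fun k => ?_⟩
  · refine tendsto_atTop.2 fun B => ?_
    filter_upwards [tendsto_atTop.1 hn (B * 16)] with k hk
    exact le_max_of_le_right ((Nat.le_div_iff_mul_le (by norm_num)).2 hk)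
  · show (grid16 (n k)).SideGe (max 1 (n k / 16)) ∧ (grid16 (n k)).SideLe (17 * max 1 (n k / 16))
    by_cases h : 16 ≤ n k
    · have h1 : 1 ≤ n k / 16 := (Nat.le_div_iff_mul_le (by norm_num)).2 (by omega)
      rw [max_eq_right h1]
      refine ⟨⟨fun i => ?_, fun i => ?_⟩, ⟨fun i => ?_, fun i => ?_⟩⟩
      · rw [grid16_x₁ _ h]; exact (gx_side _ h i).1
      · rw [grid16_x₂ _ h]; exact (gx_side _ h i).1
      · rw [grid16_x₁ _ h]; exact (gx_side _ h i).2
      · rw [grid16_x₂ _ h]; exact (gx_side _ h i).2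
    · have h1 : n k / 16 = 0 := Nat.div_eq_of_lt (by omega)
      have h2 : grid16 (n k) = DGrid.unif 16 16 1 one_pos := by simp [grid16, h]
      rw [h1, h2]
      refine ⟨⟨fun i => ?_, fun i => ?_⟩, ⟨fun i => ?_, fun i => ?_⟩⟩ <;> simp [DGrid.unif]

theorem gd_shift (u : ℤ × ℤ → ℝ) (o : ℤ × ℤ) (e : Bond) : gd (fun v => u (v + o)) e = gd u (e.1 + o, e.2) := by
  simp only [gd, snd_add]

/-- L-TOR-LOW-3.  PLAN: `ν k = max 1 (n k / 16)`; `C2.scaleCoef_comparable` + `scen_of_scaleCoef` give `C3.Scen a b ν`; `Admissible 17 (grid16 ∘ n) ν` (the two middle cells have side `q + 1 + n % 16`); `(rim 16).NoDiag` (all cells, no cut: `decide`-free, both alternatives hold);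
`pin_shift_lower` for `u (· + o k)` (constants `M/n ≤ M/ν`... use `16 M`), `nearPin_nearSeam`, `tV_ge_pinned`. -/
theorem tor_lower {b : ℕ → ℝ} {n : ℕ → ℕ} {a : ℝ} (hS : ScaleCoef b n a) (ha : 0 < a) {u : ℕ → ℤ × ℤ → ℝ} (hu : TReg n u)
    (o : ℕ → ℤ × ℤ) (hvan : ∀ᶠ k in atTop, ∀ v, NearSeam (n k) (v - o k) → u k v = 0) (ε : ℝ) (hε : 0 < ε) :
    ∀ᶠ k in atTop, a * tD (n k) (u k) - ε ≤ tV (b k) (n k) (u k) := by
  obtain ⟨M, hM⟩ := hu.bd
  obtain ⟨⟨β₀, β₁, hβ₀, hβ⟩, hn, -⟩ := id hS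
  have h16 : ∀ᶠ k in atTop, 16 ≤ n k := tendsto_atTop.1 hn 16
  obtain ⟨ν, hν⟩ : ∃ ν : ℕ → ℕ, ν = fun k => max 1 (n k / 16) := ⟨_, rfl⟩
  have hS' : ScaleCoef b ν a := by
    refine C2.scaleCoef_comparable hS (1 / 32) 1 (by norm_num) ?_
    filter_upwards [h16] with k hk
    have h1 : 1 ≤ n k / 16 := (Nat.le_div_iff_mul_le (by norm_num)).2 (by omega)
    have h2 : ν k = n k / 16 := by rw [hν]; exact max_eq_right h1
    have h3 : n k ≤ 32 * ν k := by rw [h2]; omega
    have h4 : ν k ≤ n k := by rw [h2]; exact Nat.div_le_self _ _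
    have h3' : (n k : ℝ) ≤ 32 * ν k := by exact_mod_cast h3
    have h4' : (ν k : ℝ) ≤ n k := by exact_mod_cast h4
    constructor <;> linarith
  have hSc := scen_of_scaleCoef hS' ha
  have hadm : Admissible 17 (fun k => grid16 (n k)) ν := by rw [hν]; exact grid16_adm n hn
  obtain ⟨u', hu'⟩ : ∃ u' : ℕ → ℤ × ℤ → ℝ, u' = fun k =>
      if 16 ≤ n k ∧ ∀ v, NearSeam (n k) (v - o k) → u k v = 0 then fun v => u k (v + o k) else fun _ => 0 := ⟨_, rfl⟩
  have good : ∀ k, (16 ≤ n k ∧ ∀ v, NearSeam (n k) (v - o k) → u k v = 0) → u' k = fun v => u k (v + o k) := by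
    intro k hk
    rw [hu']
    exact if_pos hk
  have bad : ∀ k, ¬ (16 ≤ n k ∧ ∀ v, NearSeam (n k) (v - o k) → u k v = 0) → u' k = fun _ => 0 := by
    intro k hk
    rw [hu']
    exact if_neg hk
  have hνpos : ∀ k, (0 : ℝ) < ν k := by
    intro k
    have : 1 ≤ ν k := by rw [hν]; exact le_max_left _ _
    exact_mod_cast this
  have hνn : ∀ k, 16 ≤ n k → (ν k : ℝ) ≤ n k := by
    intro k hk
    have h1 : 1 ≤ n k / 16 := (Nat.le_div_iff_mul_le (by norm_num)).2 (by omega)
    have h2 : ν k = n k / 16 := by rw [hν]; exact max_eq_right h1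
    have h4 : ν k ≤ n k := by rw [h2]; exact Nat.div_le_self _ _
    exact_mod_cast h4
  have key := pin_shift_lower hSc (rim 16) rim_noDiag rfl rfl 17 (fun k => grid16 (n k)) hadm u' |M| ?_ ?_ ?_ ε hε
  · filter_upwards [key, h16, hvan] with k h1 h2 h3
    rw [good k ⟨h2, h3⟩] at h1
    obtain ⟨h4, h5⟩ := tV_ge_pinned (b k) (hβ₀.trans_le (hβ k).1) (n k) h2 (o k) (u k) (hu.per k) h3
    rw [h5] at h1
    exact h1.trans h4
  · intro k e
    by_cases hk : 16 ≤ n k ∧ ∀ v, NearSeam (n k) (v - o k) → u k v = 0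
    · rw [good k hk, gd_shift]
      refine ((hM k).1 _).trans ?_
      refine (div_le_div_of_nonneg_right (le_abs_self M) (Nat.cast_nonneg _)).trans ?_
      exact div_le_div_of_nonneg_left (abs_nonneg M) (hνpos k) (hνn k hk.1)
    · rw [bad k hk]
      simp only [gd, sub_self, abs_zero]
      exact div_nonneg (abs_nonneg M) (hνpos k).le
  · intro k e d hd
    by_cases hk : 16 ≤ n k ∧ ∀ v, NearSeam (n k) (v - o k) → u k v = 0
    · rw [good k hk, gd_shift, gd_shift]
      have := (hM k).2 (e.1 + o k, e.2) d hd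
      simp only at this
      rw [add_right_comm] at this
      refine this.trans ?_
      refine (div_le_div_of_nonneg_right (le_abs_self M) (by positivity)).trans ?_
      exact div_le_div_of_nonneg_left (abs_nonneg M) (by have := hνpos k; positivity)
        (pow_le_pow_left₀ (hνpos k).le (hνn k hk.1) 2)
    · rw [bad k hk]
      simp only [gd, sub_self, abs_zero]
      exact div_nonneg (abs_nonneg M) (by positivity)
  · intro k κ hκ v hv
    by_cases hk : 16 ≤ n k ∧ ∀ v, NearSeam (n k) (v - o k) → u k v = 0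
    · rw [good k hk]
      refine hk.2 _ ?_
      rw [add_sub_cancel_right]
      exact nearPin_nearSeam (n k) hk.1 κ hκ v hv
    · rw [bad k hk]

end

end Claimed.Agent.R285.Tor
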