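import Claimed.Agent.R285.Tor.Defs
import Claimed.Agent.R285.Free.Sys
import Claimed.Agent.R285.C5.T1

/-!
# ROW 285, unit MASS, layer TOR, PACKAGE FILE 1 (no dependence on PINS): leaves L-TOR-ALG, L-TOR-BRIDGE, L-TOR-UP, L-TOR-PIECE   (architect helper225)

Several leaves share this file: edit ONLY your own theorems (helper lemmas directly above them), pull before landing; statements verbatim.   Plan and assembly: `R285/Read/E5.lean`.
-/

set_option autoImplicit false

namespace Claimed.Agent.R285.Tor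

open Filter Topology C2
open scoped Classical

noncomputable section

/-! ## 1. L-TOR-ALG -/

theorem tor_ok (n : ℕ) [NeZero n] (b : ℝ) (hb : 0 < b) : (sys n b).Ok := by
  have : IsEmpty (C5.torLaw n).O := inferInstanceAs (IsEmpty Empty)
  exact HLaw.ok_of_isEmpty (C5.torLaw n) b hb

theorem tVw_nonneg (b : ℝ) (hb : 0 < b) (n : ℕ) (w : Bond → ℝ) : 0 ≤ tVw b n w := by
  unfold tVw
  split_ifs with hn
  · exact le_rfl
  · have : NeZero n := ⟨hn⟩
    exact rd_V0_nonneg (tor_ok n b hb) _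

theorem flowT_add (n : ℕ) [NeZero n] (b : ℝ) (w w' : Bond → ℝ) :
    flowT n b (fun e => w e + w' e) = flowT n b w + flowT n b w' := by
  ext z
  simp only [flowT, flowS, AddMonoidHom.coe_mk, ZeroHom.coe_mk, AddMonoidHom.add_apply, ← Finset.sum_add_distrib]
  refine Finset.sum_congr rfl fun e _ => ?_
  ring

theorem flowT_sub (n : ℕ) [NeZero n] (b : ℝ) (w w' : Bond → ℝ) :
    flowT n b (fun e => w e - w' e) = flowT n b w - flowT n b w' := by
  ext z
  simp only [flowT, flowS, AddMonoidHom.coe_mk, ZeroHom.coe_mk, AddMonoidHom.sub_apply, ← Finset.sum_sub_distrib]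
  refine Finset.sum_congr rfl fun e _ => ?_
  ring

theorem sqrt_tVw_add_le (b : ℝ) (hb : 0 < b) (n : ℕ) (w w' : Bond → ℝ) :
    Real.sqrt (tVw b n fun e => w e + w' e) ≤ Real.sqrt (tVw b n w) + Real.sqrt (tVw b n w') := by
  unfold tVw
  split_ifs with hn
  · simp
  · have : NeZero n := ⟨hn⟩
    rw [flowT_add]
    exact Free.sqrt_var_add_le _ (tor_ok n b hb) _ _

theorem lsys_parallelogram (S : LSys) (hS : S.Ok) (X Y : S.L →+ ℝ) :
    S.V0 (X + Y) + S.V0 (X - Y) = 2 * S.V0 X + 2 * S.V0 Y := by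
  simp only [rd_V0_eq]
  rw [← rd_E0_smul, ← rd_E0_smul,
    ← rd_E0_add hS (rd_dom_pow (rd_dom_test (X + Y)) 2) (rd_dom_pow (rd_dom_test (X - Y)) 2),
    ← rd_E0_add hS (rd_dom_smul 2 (rd_dom_pow (rd_dom_test X) 2)) (rd_dom_smul 2 (rd_dom_pow (rd_dom_test Y) 2))]
  congr 1
  funext z
  simp only [AddMonoidHom.add_apply, AddMonoidHom.sub_apply]
  ring

theorem tV_parallelogram (b : ℝ) (hb : 0 < b) (n : ℕ) (u u' : ℤ × ℤ → ℝ) :
    tV b n (fun v => u v + u' v) + tV b n (fun v => u v - u' v) = 2 * tV b n u + 2 * tV b n u' := by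
  have e1 : gd (fun v => u v + u' v) = fun e => gd u e + gd u' e := funext fun e => gd_add u u' e
  have e2 : gd (fun v => u v - u' v) = fun e => gd u e - gd u' e := funext fun e => gd_sub u u' e
  unfold tV tVw
  split_ifs with hn
  · simp
  · have : NeZero n := ⟨hn⟩
    rw [e1, e2, flowT_add, flowT_sub]
    exact lsys_parallelogram _ (tor_ok n b hb) _ _

theorem tD_parallelogram (n : ℕ) (u u' : ℤ × ℤ → ℝ) :
    tD n (fun v => u v + u' v) + tD n (fun v => u v - u' v) = 2 * tD n u + 2 * tD n u' := by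
  simp only [tD, gd_add, gd_sub, Finset.mul_sum, ← Finset.sum_add_distrib]
  refine Finset.sum_congr rfl fun v _ => ?_
  ring

theorem tD_nonneg (n : ℕ) (u : ℤ × ℤ → ℝ) : 0 ≤ tD n u :=
  Finset.sum_nonneg fun _ _ => by positivity

theorem mem_sq_set {n : ℕ} {p : ℤ × ℤ} : p ∈ (C2.sq n).set ↔ (0 ≤ p.1 ∧ p.1 < n) ∧ 0 ≤ p.2 ∧ p.2 < n := by
  simp [C2.sq, Rc.set, Finset.mem_product, Finset.mem_Ico]

theorem rep_mem (n : ℕ) [NeZero n] (v : ZMod n × ZMod n) : rep n v ∈ (C2.sq n).set := by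
  rw [mem_sq_set]
  refine ⟨⟨Int.natCast_nonneg _, ?_⟩, Int.natCast_nonneg _, ?_⟩
  · show ((v.1.val : ℕ) : ℤ) < n
    exact_mod_cast ZMod.val_lt v.1
  · show ((v.2.val : ℕ) : ℤ) < n
    exact_mod_cast ZMod.val_lt v.2

/-- the torus vertex of a site of `ℤ²` -/
def prj (n : ℕ) (p : ℤ × ℤ) : ZMod n × ZMod n := ((p.1 : ZMod n), (p.2 : ZMod n))

theorem prj_rep (n : ℕ) [NeZero n] (v : ZMod n × ZMod n) : prj n (rep n v) = v := by
  simp [prj, rep]

theorem rep_prj (n : ℕ) [NeZero n] (p : ℤ × ℤ) : rep n (prj n p) = (p.1 % n, p.2 % n) := by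
  simp only [prj, rep, ZMod.val_intCast]

theorem rep_prj_of_mem (n : ℕ) [NeZero n] {p : ℤ × ℤ} (hp : p ∈ (C2.sq n).set) : rep n (prj n p) = p := by
  rw [mem_sq_set] at hp
  rw [rep_prj, Int.emod_eq_of_lt hp.1.1 hp.1.2, Int.emod_eq_of_lt hp.2.1 hp.2.2]

theorem sum_rep (n : ℕ) [NeZero n] (G : ℤ × ℤ → ℝ) : ∑ v : ZMod n × ZMod n, G (rep n v) = ∑ p ∈ (C2.sq n).set, G p :=
  Finset.sum_nbij' (rep n) (prj n) (fun v _ => rep_mem n v) (fun _ _ => Finset.mem_univ _)
    (fun v _ => prj_rep n v) (fun _ hp => rep_prj_of_mem n hp) (fun _ _ => rfl)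

theorem sum_repB (n : ℕ) [NeZero n] (F : Bond → ℝ) :
    ∑ e : (ZMod n × ZMod n) × Bool, F (repB n e) = ∑ p ∈ (C2.sq n).set, (F (p, true) + F (p, false)) := by
  rw [Fintype.sum_prod_type, ← sum_rep n fun p => F (p, true) + F (p, false)]
  refine Finset.sum_congr rfl fun v _ => ?_
  rw [Fintype.sum_bool]
  rfl

/-- [C] L2.3 on the torus -/
theorem tVw_ref (b : ℝ) (hb : 0 < b) (n : ℕ) (w : Bond → ℝ) :
    tVw b n w ≤ 4 * Real.pi ^ 2 * b * ∑ v ∈ (C2.sq n).set, (w (v, true) ^ 2 + w (v, false) ^ 2) := by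
  unfold tVw
  split_ifs with hn
  · have : 0 ≤ ∑ v ∈ (C2.sq n).set, (w (v, true) ^ 2 + w (v, false) ^ 2) := Finset.sum_nonneg fun _ _ => by positivity
    positivity
  · have : NeZero n := ⟨hn⟩
    have h1 := C2.ref_var (sys n b) (tor_ok n b hb) b (fun _ => le_rfl) fun e => 2 * Real.pi * w (repB n e)
    refine h1.trans (le_of_eq ?_)
    have h2 := sum_repB n fun e => w e ^ 2
    have h3 : ∑ e : (sys n b).E, (2 * Real.pi * w (repB n e)) ^ 2 = 4 * Real.pi ^ 2 * ∑ e : (ZMod n × ZMod n) × Bool, w (repB n e) ^ 2 := by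
      rw [Finset.mul_sum]
      refine Finset.sum_congr rfl fun e _ => ?_
      ring
    rw [h3, h2]
    ring


/-! ## 2. L-TOR-BRIDGE
[E] P5.5, last paragraph of the proof; EXACT on the lattice torus (no "normalizing correction"). -/

theorem lam_eq_sin (n : ℕ) : lam n = 4 * Real.sin (Real.pi / n) ^ 2 := C5.t1_den_eq n

/-- L-TOR-BRIDGE-1.  `lam n = 4 sin²(π/n) ≥ 16/n²` for `n ≥ 2` (`Real.mul_le_sin`: `2x/π ≤ sin x` on `[0, π/2]`). -/
theorem lam_lower (n : ℕ) (hn : 2 ≤ n) : 16 ≤ (n : ℝ) ^ 2 * lam n := by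
  have hn' : (2 : ℝ) ≤ n := by exact_mod_cast hn
  have hn0 : (0 : ℝ) < n := by linarith
  have h1 : 0 ≤ Real.pi / n := by positivity
  have h2 : Real.pi / n ≤ Real.pi / 2 :=
    div_le_div_of_nonneg_left Real.pi_pos.le (by norm_num) hn'
  have h3 := Real.mul_le_sin h1 h2
  have h4 : 2 / Real.pi * (Real.pi / n) = 2 / n := by
    field_simp
  rw [h4] at h3
  have h5 : 2 ≤ n * Real.sin (Real.pi / n) := by
    have := mul_le_mul_of_nonneg_left h3 hn0.le
    have e : (n : ℝ) * (2 / n) = 2 := by field_simp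
    rwa [e] at this
  rw [lam_eq_sin]
  nlinarith

/-- L-TOR-BRIDGE-1.  `n² lam n = 4 π² (sin(π/n)/(π/n))²`. -/
theorem lam_tendsto : Tendsto (fun n : ℕ => (n : ℝ) ^ 2 * lam n) atTop (𝓝 (4 * Real.pi ^ 2)) := by
  have h1 : Tendsto (fun n : ℕ => Real.pi / (n : ℝ)) atTop (𝓝 0) :=
    tendsto_const_div_atTop_nhds_zero_nat Real.pi
  have h2 : Tendsto (fun n : ℕ => Real.sinc (Real.pi / (n : ℝ))) atTop (𝓝 1) := by
    have := (Real.continuous_sinc.tendsto 0).comp h1
    rwa [Real.sinc_zero] at this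
  have h3 : Tendsto (fun n : ℕ => 4 * Real.pi ^ 2 * Real.sinc (Real.pi / (n : ℝ)) ^ 2) atTop
      (𝓝 (4 * Real.pi ^ 2 * 1 ^ 2)) := (h2.pow 2).const_mul _
  rw [one_pow, mul_one] at h3
  refine h3.congr' ?_
  filter_upwards [eventually_ne_atTop 0] with n hn
  have hn' : (n : ℝ) ≠ 0 := Nat.cast_ne_zero.2 hn
  have hx : Real.pi / n ≠ 0 := div_ne_zero Real.pi_ne_zero hn'
  rw [lam_eq_sin, Real.sinc_of_ne_zero hx]
  have hpi := Real.pi_ne_zero
  field_simp

theorem cosShift_eq (n : ℕ) : cosShift n = C5.cosPot n := by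
  funext v
  unfold cosShift C5.cosPot C5.kapN lam
  obtain ⟨l, hl⟩ : ∃ l : ℝ, l = 2 - 2 * Real.cos (2 * Real.pi / n) := ⟨_, rfl⟩
  rw [mul_div_assoc, ← hl, inv_pow, div_eq_mul_inv, div_eq_mul_inv _ l, mul_inv]
  ring

/-- L-TOR-BRIDGE-2.  With `c x = cos(2π x/n)`: `∑_{x<n} (c(x+1) - c x)² = n - n cos(2π/n) = n lam n / 2` (`∑ c² = n/2`, `∑ cos(2π(2x+1)/n) = 0` for `n ≥ 3`: geometric sums of roots of unity);
the vertical gradients vanish; `tD = n · (n lam/2) / (n² lam)²`. -/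
theorem tD_cosShift (n : ℕ) (hn : 3 ≤ n) : tD n (cosShift n) = 1 / (2 * ((n : ℝ) ^ 2 * lam n)) := by
  have h := C5.t1_full_dir n hn
  rw [Finset.sum_product] at h
  simp only [Fintype.sum_bool] at h
  unfold tD
  rw [cosShift_eq, h]
  unfold C5.kapN lam
  obtain ⟨l, hl⟩ : ∃ l : ℝ, l = 2 - 2 * Real.cos (2 * Real.pi / n) := ⟨_, rfl⟩
  rw [← hl, inv_pow, div_div, div_eq_mul_inv, mul_inv, one_div, mul_inv, mul_inv]
  ring

/-- L-TOR-BRIDGE-3.  **Summation by parts on the torus**: for a periodic `u`, `gradT n b u` lifts the vertex test `A_tor u`;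
for `u = cosShift n`: `A_tor u = lam n · u = C5.cosRow n` (`cos(x+θ) + cos(x-θ) = 2 cos x cos θ`).
Then `C5.torVar_eq` (`torVar = C5.Vr (torLaw n) b (cosRow n)`) and `C2.ex_eq_E0` (twice: `F = (·)²`, `F = id`) with `hP :` the plain law pinned at one vertex of a connected graph is `Proper`;
`V0 X = E0 X² - (E0 X)²` is the definition (`LSys.V0`, `Cv`, `E0`). -/
theorem tor_bridge (b : ℝ) (hb : 0 < b) (n : ℕ) (hn : 3 ≤ n) : torVar b n = tV b n (cosShift n) := by
  have hn0 : n ≠ 0 := by omega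
  have : NeZero n := ⟨hn0⟩
  rw [C5.torVar_eq b n, C5.Vr_eq_V0 (C5.torLaw n) (C5.torLaw_proper n) b (C5.cosRow n)
    (C5.torX n b (C5.torFl n)) (C5.tor_cos_lift n (by omega) b)]
  unfold tV tVw
  rw [dif_neg hn0, cosShift_eq]
  rfl

/-! ## 3. L-TOR-UP
[E] P5.5, proof, first paragraph; also [C] s5 (T1) = `C5.torVar_limsup_le` (take `C2.scaleCoef_fixed`).
SIMPLIFICATION: ONE cut instead of "small fixed rectangles": in FLOW form the test of the torus is the free gradient test of the unwrapped shift on the square `[0,n)²` (no boundary condition is needed for `C2.free_var`)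
plus the `2n` seam bonds, whose reference cost is `≤ 2n (M/n)²`. -/

/-- the bonds of `ℤ²` starting in `[0,n)²` and leaving it (they represent the seam bonds of the torus) -/
def seamW (n : ℕ) (w : Bond → ℝ) : Bond → ℝ := fun e => if e ∈ (C2.sq n).bd then 0 else w e

/-- the bonds inside `[0,n)²` -/
def innerW (n : ℕ) (w : Bond → ℝ) : Bond → ℝ := fun e => if e ∈ (C2.sq n).bd then w e else 0

/-- the torus bond of a bond of `ℤ²` -/
def prjB (n : ℕ) (e : Bond) : (ZMod n × ZMod n) × Bool := (prj n e.1, e.2)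

theorem prjB_repB (n : ℕ) [NeZero n] (e : (ZMod n × ZMod n) × Bool) : prjB n (repB n e) = e := by
  simp only [prjB, repB, prj_rep]

theorem prj_snd (n : ℕ) [NeZero n] (e : Bond) : prj n e.snd = (torus n).tgt (prjB n e) := by
  rcases e with ⟨⟨x, y⟩, d⟩
  cases d <;> simp [Bond.snd, prj, prjB, torus]

/-- gradient of a torus height, read on the bonds of `ℤ²` -/
theorem tor_coord_apply (n : ℕ) [NeZero n] (h : (torus n).V → ℤ) (e : Bond) :
    ((C5.torLaw n).coord h).1 (prjB n e) = h (prj n e.snd) - h (prj n e.1) := by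
  rw [prj_snd]
  rfl

/-- cutting the seams -/
def cutRef (n : ℕ) [NeZero n] (b : ℝ) : LSys.Ref ((C2.sq n).sys b) (sys n b) where
  iE := ⟨fun e => prjB n e.1, by
    intro e e' h
    have h0 : prjB n e.1 = prjB n e'.1 := h
    have h1 : (prjB n e.1).1 = (prjB n e'.1).1 := congrArg Prod.fst h0
    have h2 : (prjB n e.1).2 = (prjB n e'.1).2 := congrArg Prod.snd h0
    have h3 := congrArg (rep n) h1
    simp only [prjB] at h3
    rw [rep_prj_of_mem n (domBonds_fst e.2), rep_prj_of_mem n (domBonds_fst e'.2)] at h3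
    exact Subtype.ext (Prod.ext h3 h2)⟩
  iO := Function.Embedding.refl _
  hb := fun _ => rfl
  map_mem := by
    intro z hz
    obtain ⟨h, -, rfl⟩ := AddSubgroup.mem_map.1 hz
    refine AddSubgroup.mem_map.2 ⟨fun v => h (prj n v.1) - h (prj n (0, 0)), ?_, ?_⟩
    · intro v hv
      have : v.1 = (0, 0) := hv
      simp [this]
    · refine Prod.ext (funext fun e => ?_) (funext fun o => o.elim)
      have := tor_coord_apply n h e.1
      show (h (prj n (e.1).snd) - h (prj n (0, 0))) - (h (prj n (e.1).1) - h (prj n (0, 0)))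
        = ((C5.torLaw n).coord h).1 (prjB n e.1)
      rw [this]
      ring

theorem sum_bd (n : ℕ) (f : Bond → ℝ) :
    ∑ e ∈ (C2.sq n).bd, f e
      = ∑ p ∈ (C2.sq n).set, ((if (p, true) ∈ (C2.sq n).bd then f (p, true) else 0) + (if (p, false) ∈ (C2.sq n).bd then f (p, false) else 0)) := by
  have h1 : ∑ e ∈ (C2.sq n).bd, f e = ∑ e ∈ (C2.sq n).set ×ˢ (Finset.univ : Finset Bool), if e ∈ (C2.sq n).bd then f e else 0 := by
    rw [← Finset.sum_filter]
    refine Finset.sum_congr ?_ fun _ _ => rfl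
    ext e
    simp only [Finset.mem_filter]
    constructor
    · intro he
      exact ⟨Finset.mem_product.2 ⟨domBonds_fst he, Finset.mem_univ _⟩, he⟩
    · exact fun he => he.2
  rw [h1, Finset.sum_product]
  refine Finset.sum_congr rfl fun p _ => ?_
  rw [Fintype.sum_bool]

theorem flowX_comp_cut (n : ℕ) [NeZero n] (b : ℝ) (w : Bond → ℝ) :
    ((C2.sq n).flowX b w).comp (cutRef n b).psi = flowT n b (innerW n w) := by
  ext z
  obtain ⟨zz, hzz⟩ : ∃ zz : (ZMod n × ZMod n) × Bool → ℤ, zz = (z : (sys n b).Amb).1 := ⟨_, rfl⟩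
  have h1 : flowT n b (innerW n w) z
      = ∑ e : (ZMod n × ZMod n) × Bool, (fun e' : Bond => 2 * Real.pi * innerW n w e' * ((zz (prjB n e') : ℤ) : ℝ)) (repB n e) := by
    simp only [prjB_repB, hzz]
    rfl
  have h2 : (((C2.sq n).flowX b w).comp (cutRef n b).psi) z
      = ∑ e : {e : Bond // e ∈ (C2.sq n).bd}, (fun e' : Bond => 2 * Real.pi * w e' * ((zz (prjB n e') : ℤ) : ℝ)) e.1 := by
    rw [hzz]
    rfl
  rw [h1, h2, sum_repB n (fun e' : Bond => 2 * Real.pi * innerW n w e' * ((zz (prjB n e') : ℤ) : ℝ)),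
    Finset.sum_coe_sort (C2.sq n).bd (fun e' : Bond => 2 * Real.pi * w e' * ((zz (prjB n e') : ℤ) : ℝ)), sum_bd]
  refine Finset.sum_congr rfl fun p _ => ?_
  simp only [innerW]
  congr 1 <;> split_ifs <;> simp

theorem tVw_inner_le (b : ℝ) (hb : 0 < b) (n : ℕ) (w : Bond → ℝ) : tVw b n (innerW n w) ≤ (C2.sq n).var b w := by
  unfold tVw
  split_ifs with hn
  · exact rd_V0_nonneg (C2.rc_ok _ b hb) _
  · have : NeZero n := ⟨hn⟩
    rw [← flowX_comp_cut]
    exact lsys_var_mono (cutRef n b) (C2.rc_ok _ b hb) (tor_ok n b hb) _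

theorem inner_add_seam (n : ℕ) (w : Bond → ℝ) : (fun e => innerW n w e + seamW n w e) = w := by
  funext e
  simp only [innerW, seamW]
  split_ifs <;> simp

theorem tD_eq (n : ℕ) (u : ℤ × ℤ → ℝ) :
    tD n u = (C2.sq n).dir u + ∑ v ∈ (C2.sq n).set, (seamW n (gd u) (v, true) ^ 2 + seamW n (gd u) (v, false) ^ 2) := by
  rw [Rc.dir, Rc.cost, sum_bd, ← Finset.sum_add_distrib, tD]
  refine Finset.sum_congr rfl fun p _ => ?_
  simp only [seamW]
  split_ifs <;> ring

theorem mem_sq_bd {n : ℕ} {e : Bond} : e ∈ (C2.sq n).bd ↔ e.1 ∈ (C2.sq n).set ∧ e.snd ∈ (C2.sq n).set := by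
  simp only [Rc.bd, domBonds, Finset.mem_filter, Finset.mem_product, Finset.mem_univ, and_true, Set.mem_empty_iff_false,
    not_false_eq_true]

theorem seam_sum_le (n : ℕ) (w : Bond → ℝ) (c : ℝ) (hc : 0 ≤ c) (hw : ∀ e, w e ^ 2 ≤ c) :
    ∑ v ∈ (C2.sq n).set, (seamW n w (v, true) ^ 2 + seamW n w (v, false) ^ 2) ≤ 2 * n * c := by
  have h1 : ∀ v ∈ (C2.sq n).set, seamW n w (v, true) ^ 2 + seamW n w (v, false) ^ 2
      ≤ (if v.1 = (n : ℤ) - 1 then c else 0) + (if v.2 = (n : ℤ) - 1 then c else 0) := by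
    intro v hv
    have hv' := mem_sq_set.1 hv
    refine add_le_add ?_ ?_
    · simp only [seamW]
      split_ifs with h1 h2 h2
      · simpa using hc
      · simp
      · exact hw _
      · exfalso
        apply h1
        rw [mem_sq_bd]
        refine ⟨hv, ?_⟩
        rw [mem_sq_set]
        simp only [Bond.snd, if_true]
        refine ⟨⟨by omega, by omega⟩, hv'.2⟩
    · simp only [seamW]
      split_ifs with h1 h2 h2
      · simpa using hc
      · simp
      · exact hw _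
      · exfalso
        apply h1
        rw [mem_sq_bd]
        refine ⟨hv, ?_⟩
        rw [mem_sq_set]
        simp only [Bond.snd]
        refine ⟨hv'.1, by simp; omega, by simp; omega⟩
  refine (Finset.sum_le_sum h1).trans ?_
  rw [Finset.sum_add_distrib]
  have e1 : ∑ v ∈ (C2.sq n).set, (if v.1 = (n : ℤ) - 1 then c else 0) ≤ n * c := by
    simp only [C2.sq, Rc.set]
    rw [Finset.sum_product]
    have : ∀ x : ℤ, ∑ y ∈ Finset.Ico (0 : ℤ) (0 + n), (if x = (n : ℤ) - 1 then c else 0) = if x = (n : ℤ) - 1 then n * c else 0 := by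
      intro x
      split_ifs <;> simp
    simp only [this]
    rw [Finset.sum_ite_eq']
    split_ifs
    · exact le_rfl
    · positivity
  have e2 : ∑ v ∈ (C2.sq n).set, (if v.2 = (n : ℤ) - 1 then c else 0) ≤ n * c := by
    simp only [C2.sq, Rc.set]
    rw [Finset.sum_product_right]
    have : ∀ y : ℤ, ∑ x ∈ Finset.Ico (0 : ℤ) (0 + n), (if y = (n : ℤ) - 1 then c else 0) = if y = (n : ℤ) - 1 then n * c else 0 := by
      intro x
      split_ifs <;> simp
    simp only [this]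
    rw [Finset.sum_ite_eq']
    split_ifs
    · exact le_rfl
    · positivity
  linarith

theorem tD_le (n : ℕ) (u : ℤ × ℤ → ℝ) (c : ℝ) (hw : ∀ e, gd u e ^ 2 ≤ c) : tD n u ≤ 2 * (n : ℝ) ^ 2 * c := by
  have h1 : ∀ v ∈ (C2.sq n).set, gd u (v, true) ^ 2 + gd u (v, false) ^ 2 ≤ 2 * c := fun v _ => by
    linarith [hw (v, true), hw (v, false)]
  refine (Finset.sum_le_card_nsmul _ _ _ h1).trans (le_of_eq ?_)
  simp only [C2.sq, Rc.set, Finset.card_product, Int.card_Ico, nsmul_eq_mul]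
  simp
  ring

theorem tor_upper {b : ℕ → ℝ} {n : ℕ → ℕ} {a : ℝ} (hS : ScaleCoef b n a) {u : ℕ → ℤ × ℤ → ℝ} (hu : TReg n u)
    (ε : ℝ) (hε : 0 < ε) : ∀ᶠ k in atTop, tV (b k) (n k) (u k) ≤ a * tD (n k) (u k) + ε := by
  obtain ⟨β₀, β₁, hβ₀, hβ⟩ := hS.1
  have hn : Tendsto n atTop atTop := hS.2.1
  have ha : 0 ≤ a := scaleCoef_nonneg hS
  obtain ⟨M, hM⟩ := hu.bd
  have hR : AdmN n fun k => C2.sq (n k) :=
    ⟨⟨1, fun k => by simp [C2.sq]⟩, 1, one_pos, fun k => by simp [C2.sq]⟩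
  have hreg : Reg n (fun k => C2.sq (n k)) u :=
    reg_c2 u M fun k => ⟨fun e _ => (hM k).1 e, fun e _ d hd _ => (hM k).2 e d hd⟩
  have hfree := free_var hS hR.1 hreg
  -- the seam cost
  obtain ⟨s, hs⟩ : ∃ s : ℕ → ℝ, s = fun k => 4 * Real.pi ^ 2 * β₁ * (2 * M ^ 2 / (n k : ℝ)) := ⟨_, rfl⟩
  have hs0 : Tendsto s atTop (𝓝 0) := by
    rw [hs]
    have h1 : Tendsto (fun k => 2 * M ^ 2 / (n k : ℝ)) atTop (𝓝 0) :=
      (tendsto_const_div_atTop_nhds_zero_nat (2 * M ^ 2)).comp hn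
    simpa using h1.const_mul (4 * Real.pi ^ 2 * β₁)
  obtain ⟨B, hB⟩ : ∃ B : ℝ, B = a * (2 * M ^ 2) + 1 := ⟨_, rfl⟩
  have herr : Tendsto (fun k => 2 * Real.sqrt (B * s k) + s k) atTop (𝓝 0) := by
    have h1 : Tendsto (fun k => Real.sqrt (B * s k)) atTop (𝓝 0) := by
      have := (Real.continuous_sqrt.tendsto _).comp (hs0.const_mul B)
      rw [mul_zero, Real.sqrt_zero] at this
      exact this
    simpa using (h1.const_mul 2).add hs0
  filter_upwards [hfree.eventually (eventually_lt_nhds (show (0 : ℝ) < min (ε / 2) 1 from lt_min (half_pos hε) one_pos)),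
    herr.eventually (eventually_lt_nhds (half_pos hε)), hn.eventually_ge_atTop 1] with k hk1 hk2 hk3
  have hb : 0 < b k := lt_of_lt_of_le hβ₀ (hβ k).1
  have hnk : (0 : ℝ) < n k := by exact_mod_cast (by omega : 0 < n k)
  have hsq : ∀ e, gd (u k) e ^ 2 ≤ (M / n k) ^ 2 := fun e => by
    rw [← sq_abs]
    exact pow_le_pow_left₀ (abs_nonneg _) ((hM k).1 e) 2
  -- pieces
  have h1 := sqrt_tVw_add_le (b k) hb (n k) (innerW (n k) (gd (u k))) (seamW (n k) (gd (u k)))
  rw [inner_add_seam] at h1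
  have h2 := tVw_inner_le (b k) hb (n k) (gd (u k))
  have h3 : tVw (b k) (n k) (seamW (n k) (gd (u k))) ≤ s k := by
    refine (tVw_ref (b k) hb (n k) _).trans ?_
    have h4 := seam_sum_le (n k) (gd (u k)) ((M / n k) ^ 2) (sq_nonneg _) hsq
    have e : 2 * (n k : ℝ) * (M / n k) ^ 2 = 2 * M ^ 2 / n k := by
      field_simp
    rw [e] at h4
    rw [hs]
    have h5 : 0 ≤ ∑ v ∈ (C2.sq (n k)).set, (seamW (n k) (gd (u k)) (v, true) ^ 2 + seamW (n k) (gd (u k)) (v, false) ^ 2) :=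
      Finset.sum_nonneg fun _ _ => by positivity
    have h6 : 4 * Real.pi ^ 2 * b k ≤ 4 * Real.pi ^ 2 * β₁ := by
      have := (hβ k).2
      gcongr
    exact mul_le_mul h6 h4 h5 (by have := hβ₀.trans_le ((hβ k).1.trans (hβ k).2); positivity)
  have hdir : (C2.sq (n k)).dir (u k) ≤ tD (n k) (u k) := by
    rw [tD_eq]
    have : 0 ≤ ∑ v ∈ (C2.sq (n k)).set, (seamW (n k) (gd (u k)) (v, true) ^ 2 + seamW (n k) (gd (u k)) (v, false) ^ 2) :=
      Finset.sum_nonneg fun _ _ => by positivity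
    linarith
  have hDle : tD (n k) (u k) ≤ 2 * M ^ 2 := by
    refine (tD_le (n k) (u k) _ hsq).trans (le_of_eq ?_)
    field_simp
  have hVf : (C2.sq (n k)).var (b k) (gd (u k)) ≤ a * tD (n k) (u k) + min (ε / 2) 1 := by
    have := mul_le_mul_of_nonneg_left hdir ha
    linarith
  have hVfB : (C2.sq (n k)).var (b k) (gd (u k)) ≤ B := by
    rw [hB]
    have := mul_le_mul_of_nonneg_left hDle ha
    linarith [min_le_right (ε / 2) 1]
  have hV0 : 0 ≤ (C2.sq (n k)).var (b k) (gd (u k)) := (tVw_nonneg (b k) hb (n k) _).trans h2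
  have hs0' : 0 ≤ s k := (tVw_nonneg (b k) hb (n k) _).trans h3
  have h7 : Real.sqrt (tV (b k) (n k) (u k)) ≤ Real.sqrt ((C2.sq (n k)).var (b k) (gd (u k))) + Real.sqrt (s k) :=
    h1.trans (add_le_add (Real.sqrt_le_sqrt h2) (Real.sqrt_le_sqrt h3))
  have h8 : tV (b k) (n k) (u k) ≤ (Real.sqrt ((C2.sq (n k)).var (b k) (gd (u k))) + Real.sqrt (s k)) ^ 2 := by
    have h9 : 0 ≤ tV (b k) (n k) (u k) := tVw_nonneg (b k) hb (n k) _
    calc tV (b k) (n k) (u k) = Real.sqrt (tV (b k) (n k) (u k)) ^ 2 := (Real.sq_sqrt h9).symm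
      _ ≤ _ := pow_le_pow_left₀ (Real.sqrt_nonneg _) h7 2
  have h10 : (Real.sqrt ((C2.sq (n k)).var (b k) (gd (u k))) + Real.sqrt (s k)) ^ 2
      = (C2.sq (n k)).var (b k) (gd (u k)) + 2 * Real.sqrt ((C2.sq (n k)).var (b k) (gd (u k)) * s k) + s k := by
    rw [Real.sqrt_mul hV0, add_sq, Real.sq_sqrt hV0, Real.sq_sqrt hs0']
    ring
  have h11 : Real.sqrt ((C2.sq (n k)).var (b k) (gd (u k)) * s k) ≤ Real.sqrt (B * s k) :=
    Real.sqrt_le_sqrt (mul_le_mul_of_nonneg_right hVfB hs0')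
  linarith [min_le_left (ε / 2) 1]

/-! ## 4. L-TOR-PIECE
[E] P5.5, proof: "use a finite smooth partition of unity to write g as a sum of shifts supported in such charts". -/

/-- a smooth `1`-periodic cutoff: `0` when `dist(t, ℤ) ≤ 3/16`, `1` when `dist(t, ℤ) ≥ 5/16` -/
def chi (t : ℝ) : ℝ :=
  Real.smoothTransition ((Real.cos (3 * Real.pi / 8) - Real.cos (2 * Real.pi * t)) / (2 * Real.cos (3 * Real.pi / 8)))

theorem torp_bdd (f : ℝ → ℝ) (hf : Continuous f) (hper : ∀ t, f (t + 1) = f t) : ∃ M, 0 ≤ M ∧ ∀ t, |f t| ≤ M := by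
  have hp : Function.Periodic f 1 := hper
  obtain ⟨M, hM⟩ := (hp.isBounded_of_continuous one_ne_zero hf).exists_norm_le
  exact ⟨max M 0, le_max_right _ _, fun t => (hM _ ⟨t, rfl⟩).trans (le_max_left _ _)⟩

theorem torp_deriv_per (f : ℝ → ℝ) (hper : ∀ t, f (t + 1) = f t) (t : ℝ) : deriv f (t + 1) = deriv f t := by
  have h : (fun s => f (s + 1)) = f := funext hper
  conv_rhs => rw [← h]
  rw [deriv_comp_add_const]

theorem torp_lip (f : ℝ → ℝ) (hf : Differentiable ℝ f) (M : ℝ) (hM : ∀ t, |deriv f t| ≤ M) (t h : ℝ) :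
    |f (t + h) - f t| ≤ M * |h| := by
  have := Convex.norm_image_sub_le_of_norm_deriv_le (f := f) (s := Set.univ) (C := M) (fun x _ => hf x)
    (fun x _ => hM x) convex_univ (Set.mem_univ t) (Set.mem_univ (t + h))
  simpa using this

/-- L-TOR-PIECE-1 (Mathlib only).  A `C²` function `A : ℝ → ℝ` of period `1` has bounded first and second differences: `A', A''` are continuous and periodic, hence bounded (`IsCompact.exists_bound_of_continuousOn` on `[0,1]`);
mean value inequality for `A` and for `t ↦ A (t + h) - A t`. -/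
theorem per_c2_bounds (A : ℝ → ℝ) (hA : ContDiff ℝ 2 A) (hper : ∀ t, A (t + 1) = A t) :
    ∃ M : ℝ, ∀ t h : ℝ, |A t| ≤ M ∧ |A (t + h) - A t| ≤ M * |h| ∧ |A (t + 2 * h) - 2 * A (t + h) + A t| ≤ M * h ^ 2 := by
  have hA' : ContDiff ℝ (1 + 1) A := by rwa [one_add_one_eq_two]
  have hA1 : ContDiff ℝ 1 (deriv A) := ((contDiff_succ_iff_deriv (n := 1)).1 hA').2.2
  have hdA : Differentiable ℝ A := hA.differentiable (by norm_num)
  have hdA1 : Differentiable ℝ (deriv A) := hA1.differentiable (by norm_num)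
  have hA2 : Continuous (deriv (deriv A)) := hA1.continuous_deriv le_rfl
  obtain ⟨M0, h0, b0⟩ := torp_bdd A hA.continuous hper
  obtain ⟨M1, h1, b1⟩ := torp_bdd (deriv A) hA1.continuous (torp_deriv_per A hper)
  obtain ⟨M2, h2, b2⟩ := torp_bdd (deriv (deriv A)) hA2 (torp_deriv_per _ (torp_deriv_per A hper))
  refine ⟨M0 + M1 + M2, fun t h => ⟨(b0 t).trans (by linarith), ?_, ?_⟩⟩
  · refine (torp_lip A hdA M1 b1 t h).trans ?_
    exact mul_le_mul_of_nonneg_right (by linarith) (abs_nonneg h)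
  · have hg : Differentiable ℝ (fun s => A (s + h) - A s) :=
      (hdA.comp (differentiable_id.add_const h)).sub hdA
    have hgd : ∀ s, |deriv (fun s => A (s + h) - A s) s| ≤ M2 * |h| := by
      intro s
      have e : deriv (fun s => A (s + h) - A s) s = deriv A (s + h) - deriv A s := by
        have hs : DifferentiableAt ℝ (fun s => A (s + h)) s := (hdA.comp (differentiable_id.add_const h)) s
        rw [deriv_fun_sub hs (hdA s), deriv_comp_add_const]
      rw [e]
      exact torp_lip _ hdA1 M2 b2 s h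
    have h3 := torp_lip _ hg (M2 * |h|) hgd t h
    have e : A (t + 2 * h) - 2 * A (t + h) + A t = A (t + h + h) - A (t + h) - (A (t + h) - A t) := by
      rw [show t + 2 * h = t + h + h by ring]
      ring
    rw [e]
    refine h3.trans ?_
    rw [mul_assoc, abs_mul_abs_self, ← pow_two]
    exact mul_le_mul_of_nonneg_right (by linarith) (sq_nonneg h)

theorem torp_abs3 {c a b C α β : ℝ} (hc : |c| ≤ C) (ha : |a| ≤ α) (hb : |b| ≤ β) : |c * a * b| ≤ C * α * β := by
  rw [abs_mul, abs_mul]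
  exact mul_le_mul (mul_le_mul hc ha (abs_nonneg _) ((abs_nonneg _).trans hc)) hb (abs_nonneg _)
    (mul_nonneg ((abs_nonneg _).trans hc) ((abs_nonneg _).trans ha))

/-- L-TOR-PIECE-2.  Sampled products `c_k A(x/n) B(y/n)`, `|c_k| ≤ C`, are `TReg` (for `n k = 0` everything is `0/0 = 0`: `A(x/0) = A 0` is constant). -/
theorem treg_prod (n : ℕ → ℕ) (A B : ℝ → ℝ) (hA : ContDiff ℝ 2 A) (hB : ContDiff ℝ 2 B) (hAp : ∀ t, A (t + 1) = A t)
    (hBp : ∀ t, B (t + 1) = B t) (c : ℕ → ℝ) (C : ℝ) (hc : ∀ k, |c k| ≤ C) (h0 : ∀ k, n k = 0 → c k = 0) :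
    TReg n fun k v => c k * A ((v.1 : ℝ) / n k) * B ((v.2 : ℝ) / n k) := by
  obtain ⟨MA, hMA⟩ := per_c2_bounds A hA hAp
  obtain ⟨MB, hMB⟩ := per_c2_bounds B hB hBp
  refine ⟨fun k v => ?_, C * MA * MB, fun k => ?_⟩
  · by_cases hk : n k = 0
    · simp [h0 k hk]
    · have hn : (n k : ℝ) ≠ 0 := by exact_mod_cast hk
      have e : ∀ z : ℤ, ((z + (n k : ℤ) : ℤ) : ℝ) / n k = (z : ℝ) / n k + 1 := by
        intro z
        push_cast
        field_simp
      constructor
      · show c k * A (((v.1 + (n k : ℤ) : ℤ) : ℝ) / n k) * B ((v.2 : ℝ) / n k) = _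
        rw [e, hAp]
      · show c k * A ((v.1 : ℝ) / n k) * B (((v.2 + (n k : ℤ) : ℤ) : ℝ) / n k) = _
        rw [e, hBp]
  · by_cases hk : n k = 0
    · have hck : c k = 0 := h0 k hk
      simp [gd, hck, hk]
    · have hN : (0 : ℝ) < n k := by exact_mod_cast Nat.pos_of_ne_zero hk
      obtain ⟨N, hNe⟩ : ∃ N : ℝ, N = n k := ⟨_, rfl⟩
      rw [← hNe] at hN
      obtain ⟨h, hh⟩ : ∃ h : ℝ, h = 1 / N := ⟨_, rfl⟩
      have habs : |h| = 1 / N := by rw [hh, abs_of_pos (by positivity)]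
      have e1 : ∀ z : ℤ, ((z + 1 : ℤ) : ℝ) / N = (z : ℝ) / N + h := by
        intro z
        rw [hh]
        push_cast
        ring
      have e2 : ∀ z : ℤ, ((z + 1 + 1 : ℤ) : ℝ) / N = (z : ℝ) / N + 2 * h := by
        intro z
        rw [hh]
        push_cast
        ring
      have q1 : C * (MA * |h|) * MB = C * MA * MB / N := by rw [habs]; ring
      have q2 : C * MA * (MB * |h|) = C * MA * MB / N := by rw [habs]; ring
      have q3 : C * (MA * h ^ 2) * MB = C * MA * MB / N ^ 2 := by rw [hh]; ring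
      have q4 : C * (MA * |h|) * (MB * |h|) = C * MA * MB / N ^ 2 := by rw [habs]; ring
      have q5 : C * MA * (MB * h ^ 2) = C * MA * MB / N ^ 2 := by rw [hh]; ring
      simp only [← hNe]
      constructor
      · rintro ⟨⟨x, y⟩, s⟩
        cases s
        · simp only [gd, Bond.snd, Bool.false_eq_true, if_false]
          rw [e1, ← q2]
          have := torp_abs3 (hc k) (hMA ((x : ℝ) / N) h).1 (hMB ((y : ℝ) / N) h).2.1
          refine le_trans (le_of_eq ?_) this
          congr 1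
          ring
        · simp only [gd, Bond.snd, if_true]
          rw [e1, ← q1]
          have := torp_abs3 (hc k) (hMA ((x : ℝ) / N) h).2.1 (hMB ((y : ℝ) / N) h).1
          refine le_trans (le_of_eq ?_) this
          congr 1
          ring
      · rintro ⟨⟨x, y⟩, s⟩ d hd
        rcases hd with rfl | rfl <;> cases s
        · simp only [gd, Bond.snd, Bool.false_eq_true, if_false, Prod.mk_add_mk, add_zero]
          rw [e1, e1, ← q4]
          have := torp_abs3 (hc k) (hMA ((x : ℝ) / N) h).2.1 (hMB ((y : ℝ) / N) h).2.1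
          refine le_trans (le_of_eq ?_) this
          congr 1
          ring
        · simp only [gd, Bond.snd, if_true, Prod.mk_add_mk, add_zero]
          rw [e2, e1, ← q3]
          have := torp_abs3 (hc k) (hMA ((x : ℝ) / N) h).2.2 (hMB ((y : ℝ) / N) h).1
          refine le_trans (le_of_eq ?_) this
          congr 1
          ring
        · simp only [gd, Bond.snd, Bool.false_eq_true, if_false, Prod.mk_add_mk, add_zero]
          rw [e2, e1, ← q5]
          have := torp_abs3 (hc k) (hMA ((x : ℝ) / N) h).1 (hMB ((y : ℝ) / N) h).2.2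
          refine le_trans (le_of_eq ?_) this
          congr 1
          ring
        · simp only [gd, Bond.snd, if_true, Prod.mk_add_mk, add_zero]
          rw [e1, e1, ← q4]
          have := torp_abs3 (hc k) (hMA ((x : ℝ) / N) h).2.1 (hMB ((y : ℝ) / N) h).2.1
          refine le_trans (le_of_eq ?_) this
          congr 1
          ring

theorem torp_cos_ge {x : ℝ} (hx : |x| ≤ 3 * Real.pi / 8) : Real.cos (3 * Real.pi / 8) ≤ Real.cos x := by
  rw [← Real.cos_abs x]
  exact Real.cos_le_cos_of_nonneg_of_le_pi (abs_nonneg x) (by linarith [Real.pi_pos]) hx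

theorem torp_c_pos : 0 < Real.cos (3 * Real.pi / 8) :=
  Real.cos_pos_of_mem_Ioo ⟨by linarith [Real.pi_pos], by linarith [Real.pi_pos]⟩

theorem torp_scale {s : ℝ} (h : |s| ≤ 3 / 16) : |2 * Real.pi * s| ≤ 3 * Real.pi / 8 := by
  rw [abs_mul, abs_of_pos (by positivity : (0 : ℝ) < 2 * Real.pi)]
  nlinarith [Real.pi_pos]

theorem chi_zero {t : ℝ} (q : ℤ) (h : |t - q| ≤ 3 / 16) : chi t = 0 := by
  unfold chi
  apply Real.smoothTransition.zero_of_nonpos
  apply div_nonpos_of_nonpos_of_nonneg _ (by linarith [torp_c_pos])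
  have e : Real.cos (2 * Real.pi * t) = Real.cos (2 * Real.pi * (t - q)) := by
    rw [show 2 * Real.pi * t = 2 * Real.pi * (t - q) + q * (2 * Real.pi) by ring, Real.cos_add_int_mul_two_pi]
  rw [e]
  have := torp_cos_ge (torp_scale h)
  linarith

theorem chi_one {t : ℝ} (q : ℤ) (h : |t - q - 1 / 2| ≤ 3 / 16) : chi t = 1 := by
  unfold chi
  apply Real.smoothTransition.one_of_one_le
  rw [le_div_iff₀ (by linarith [torp_c_pos])]
  have e : Real.cos (2 * Real.pi * t) = - Real.cos (2 * Real.pi * (t - q - 1 / 2)) := by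
    rw [show 2 * Real.pi * t = 2 * Real.pi * (t - q - 1 / 2) + Real.pi + q * (2 * Real.pi) by ring,
      Real.cos_add_int_mul_two_pi, Real.cos_add_pi]
  rw [e]
  have := torp_cos_ge (torp_scale h)
  linarith

theorem chi_contDiff : ContDiff ℝ 2 chi := by
  unfold chi
  exact Real.smoothTransition.contDiff.comp
    ((contDiff_const.sub (Real.contDiff_cos.comp (contDiff_const.mul contDiff_id))).div_const _)

theorem chi_per (t : ℝ) : chi (t + 1) = chi t := by
  unfold chi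
  rw [show 2 * Real.pi * (t + 1) = 2 * Real.pi * t + 2 * Real.pi by ring, Real.cos_add_two_pi]

/-- `χ_0 = chi`, `χ_1 = 1 - chi` -/
def torChi (i : Bool) (t : ℝ) : ℝ := if i then 1 - chi t else chi t

theorem torChi_contDiff (i : Bool) : ContDiff ℝ 2 (torChi i) := by
  cases i
  · exact chi_contDiff
  · exact contDiff_const.sub chi_contDiff

theorem torChi_per (i : Bool) (t : ℝ) : torChi i (t + 1) = torChi i t := by
  cases i <;> simp [torChi, chi_per]

/-- the cutoff vanishes near its seam -/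
theorem torp_vanish (n : ℕ) (hn : 8 ≤ n) (i : Bool) (z : ℤ)
    (h : 8 * ((z - (if i then ((n / 2 : ℕ) : ℤ) else 0)) % n) ≤ n ∨
      7 * (n : ℤ) ≤ 8 * ((z - (if i then ((n / 2 : ℕ) : ℤ) else 0)) % n)) : torChi i ((z : ℝ) / n) = 0 := by
  have hnz : (0 : ℤ) < n := by exact_mod_cast (by omega : 0 < n)
  have hN : (0 : ℝ) < n := by exact_mod_cast (by omega : 0 < n)
  have hN8 : (8 : ℝ) ≤ n := by exact_mod_cast hn
  obtain ⟨w, hw⟩ : ∃ w : ℤ, w = z - (if i then ((n / 2 : ℕ) : ℤ) else 0) := ⟨_, rfl⟩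
  rw [← hw] at h
  obtain ⟨r, hr⟩ : ∃ r : ℤ, r = w % n := ⟨_, rfl⟩
  obtain ⟨q, hq⟩ : ∃ q : ℤ, q = w / n := ⟨_, rfl⟩
  have h1 : 0 ≤ r := hr ▸ Int.emod_nonneg w hnz.ne'
  have h2 : r < n := hr ▸ Int.emod_lt_of_pos w hnz
  have h3 : w = n * q + r := by rw [hr, hq]; exact (Int.mul_ediv_add_emod w n).symm
  rw [← hr] at h
  have h1' : (0 : ℝ) ≤ r := by exact_mod_cast h1
  have h2' : (r : ℝ) < n := by exact_mod_cast h2
  have hRN0 : 0 ≤ (r : ℝ) / n := by positivity
  have hRN1 : (r : ℝ) / n < 1 := (div_lt_one hN).2 h2'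
  cases i
  · have hz : (z : ℝ) = n * q + r := by
      have : z = n * q + r := by rw [← h3, hw]; simp
      exact_mod_cast this
    have ht : (z : ℝ) / n = q + (r : ℝ) / n := by rw [hz]; field_simp
    show chi _ = 0
    rcases h with h | h
    · have h' : 8 * (r : ℝ) ≤ n := by exact_mod_cast h
      have : (r : ℝ) / n ≤ 1 / 8 := by rw [div_le_iff₀ hN]; linarith
      refine chi_zero q ?_
      rw [ht, abs_le]
      constructor <;> linarith
    · have h' : 7 * (n : ℝ) ≤ 8 * r := by exact_mod_cast h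
      have : 7 / 8 ≤ (r : ℝ) / n := by rw [le_div_iff₀ hN]; linarith
      refine chi_zero (q + 1) ?_
      rw [ht, abs_le]
      push_cast
      constructor <;> linarith
  · obtain ⟨H, hH⟩ : ∃ H : ℕ, H = n / 2 := ⟨_, rfl⟩
    have hH1 : 2 * (H : ℝ) ≤ n := by exact_mod_cast (by omega : 2 * H ≤ n)
    have hH2 : (n : ℝ) ≤ 2 * H + 1 := by exact_mod_cast (by omega : n ≤ 2 * H + 1)
    have hz : (z : ℝ) = n * q + r + H := by
      have : z = n * q + r + H := by rw [← h3, hw, hH]; simp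
      exact_mod_cast this
    have ht : (z : ℝ) / n = q + (r : ℝ) / n + (H : ℝ) / n := by rw [hz]; field_simp
    have hHN1 : (H : ℝ) / n ≤ 1 / 2 := by rw [div_le_iff₀ hN]; linarith
    have hHN2 : 7 / 16 ≤ (H : ℝ) / n := by rw [le_div_iff₀ hN]; linarith
    show 1 - chi _ = 0
    rw [sub_eq_zero]
    symm
    rcases h with h | h
    · have h' : 8 * (r : ℝ) ≤ n := by exact_mod_cast h
      have : (r : ℝ) / n ≤ 1 / 8 := by rw [div_le_iff₀ hN]; linarith
      refine chi_one q ?_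
      rw [ht, abs_le]
      constructor <;> linarith
    · have h' : 7 * (n : ℝ) ≤ 8 * r := by exact_mod_cast h
      have : 7 / 8 ≤ (r : ℝ) / n := by rw [le_div_iff₀ hN]; linarith
      refine chi_one (q + 1) ?_
      rw [ht, abs_le]
      push_cast
      constructor <;> linarith

/-- the piece `(i, j)` -/
def torPiece (n : ℕ → ℕ) (i j : Bool) (k : ℕ) (v : ℤ × ℤ) : ℝ :=
  (1 / ((n k : ℝ) ^ 2 * lam (n k))) * (torChi i ((v.1 : ℝ) / n k) * Real.cos (2 * Real.pi * ((v.1 : ℝ) / n k)))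
    * torChi j ((v.2 : ℝ) / n k)

/-- the offset of the piece `(i, j)` -/
def torOff (n : ℕ → ℕ) (i j : Bool) (k : ℕ) : ℤ × ℤ :=
  ((if i then ((n k / 2 : ℕ) : ℤ) else 0), (if j then ((n k / 2 : ℕ) : ℤ) else 0))

/-- stores the on-demand equation lemmas of the definitions above in THIS module (rule 6 hygiene). -/
theorem torp_forced : True := by
  have := @torChi.eq_1
  have := @torPiece.eq_1
  have := @torOff.eq_1
  trivial

theorem torp_coef (m : ℕ) : |1 / ((m : ℝ) ^ 2 * lam m)| ≤ 1 / 16 := by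
  rcases Nat.lt_or_ge m 2 with h | h
  · have : (m : ℝ) ^ 2 * lam m = 0 := by
      interval_cases m
      · simp
      · simp [lam]
    rw [this]
    norm_num
  · have h1 := lam_lower m h
    rw [abs_of_pos (by positivity)]
    exact one_div_le_one_div_of_le (by norm_num) h1

theorem torPiece_treg (n : ℕ → ℕ) (i j : Bool) : TReg n (torPiece n i j) := by
  refine treg_prod n (fun t => torChi i t * Real.cos (2 * Real.pi * t)) (torChi j)
    ((torChi_contDiff i).mul (Real.contDiff_cos.comp (contDiff_const.mul contDiff_id))) (torChi_contDiff j)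
    (fun t => ?_) (torChi_per j) (fun k => 1 / ((n k : ℝ) ^ 2 * lam (n k))) (1 / 16) (fun k => torp_coef _)
    (fun k hk => ?_)
  · rw [torChi_per, show 2 * Real.pi * (t + 1) = 2 * Real.pi * t + 2 * Real.pi by ring, Real.cos_add_two_pi]
  · simp [hk]

theorem torPiece_zero (n : ℕ → ℕ) (i j : Bool) (k : ℕ) (hk : 8 ≤ n k) (v : ℤ × ℤ)
    (h : NearSeam (n k) (v - torOff n i j k)) : torPiece n i j k v = 0 := by
  unfold torPiece
  rcases h with h | h | h | h
  · rw [torp_vanish (n k) hk i v.1 (Or.inl h)]; simp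
  · rw [torp_vanish (n k) hk i v.1 (Or.inr h)]; simp
  · rw [torp_vanish (n k) hk j v.2 (Or.inl h)]; simp
  · rw [torp_vanish (n k) hk j v.2 (Or.inr h)]; simp

/-- L-TOR-PIECE-3.  The four pieces `χ_i(x/n) χ_j(y/n) cosShift`, `χ_0 = chi`, `χ_1 = 1 - chi`, with the offsets `o = (i ⌊n/2⌋, j ⌊n/2⌋)`.
`chi t = 0` if `cos 2πt ≥ cos(3π/8)` (`Real.smoothTransition.zero_of_nonpos`), `chi t = 1` if `cos 2πt ≤ -cos(3π/8) = cos(5π/8)` (`one_of_one_le`).
`NearSeam n v` gives `dist(v.1/n, ℤ) ≤ 1/8`; with the offset `⌊n/2⌋`: `dist(v.1/n - 1/2, ℤ) ≤ 1/8 + 1/(2n) ≤ 3/16` for `n ≥ 8`.   `c_k = 1/(n² lam n) ≤ 1/16` (`lam_lower`; `lam 0 = lam 1 = 0`). -/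
theorem pieces (n : ℕ → ℕ) : ∃ (p : Fin 4 → ℕ → ℤ × ℤ → ℝ) (o : Fin 4 → ℕ → ℤ × ℤ),
    (∀ i, TReg n (p i)) ∧ (∀ i k, 8 ≤ n k → ∀ v, NearSeam (n k) (v - o i k) → p i k v = 0) ∧
      ∀ k v, p 0 k v + p 1 k v + p 2 k v + p 3 k v = cosShift (n k) v := by
  refine ⟨![torPiece n false false, torPiece n false true, torPiece n true false, torPiece n true true],
    ![torOff n false false, torOff n false true, torOff n true false, torOff n true true], ?_, ?_, ?_⟩
  · intro i
    fin_cases i <;> exact torPiece_treg n _ _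
  · intro i k hk v h
    fin_cases i <;> exact torPiece_zero n _ _ k hk v h
  · intro k v
    show torPiece n false false k v + torPiece n false true k v + torPiece n true false k v
      + torPiece n true true k v = _
    simp only [torPiece, torChi, cosShift, Bool.false_eq_true, if_false, if_true]
    rw [mul_div_assoc]
    ring

end

end Claimed.Agent.R285.Tor
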